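import Vale.Agent.P179.H904.Cent2
import Vale.Agent.P179.H531.St0

/-!
# Module START/CENT of the ALLB project (P179), part 3
-/

set_option autoImplicit false
set_option linter.unusedSectionVars false

namespace Vale.P179.H904

open MonoidAlgebra Module Vale.P179.H531

section TrC

variable {k C : Type*} [Field k] [Group C] {D : Subgroup C} [D.Normal]

/-- the relative trace from a central subgroup -/
noncomputable def trC (D : Subgroup C) [Fintype (C ⧸ D)] (a : MonoidAlgebra k C) :
    MonoidAlgebra k C := ∑ h : C ⧸ D, single h.out 1 * a * single h.out⁻¹ 1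

theorem qD_trC [Fintype (C ⧸ D)] (a : MonoidAlgebra k C) :
    qD k D (trC D a) = trH (qD k D a) := by
  rw [trC, trH, map_sum]
  refine Finset.sum_congr rfl fun h _ => ?_
  rw [map_mul, map_mul, qD_single, qD_single, QuotientGroup.mk_inv, QuotientGroup.out_eq']

theorem conj_dep (hD : ∀ d ∈ D, ∀ c, d * c = c * d) (a : MonoidAlgebra k C) {c c' : C}
    (h : (QuotientGroup.mk c : C ⧸ D) = QuotientGroup.mk c') :
    single c (1 : k) * a * single c⁻¹ 1 = single c' 1 * a * single c'⁻¹ 1 := by
  have hdj : ∀ (d : D) (a : MonoidAlgebra k C),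
      single (d : C) (1 : k) * a = a * single (d : C) 1 := by
    intro d a
    induction a using MonoidAlgebra.induction_linear with
    | zero => rw [zero_mul, mul_zero]
    | add a b ha hb => rw [add_mul, mul_add, ha, hb]
    | single g c => rw [single_mul_single, single_mul_single, hD d d.2 g, one_mul, mul_one]
  have h1 : c⁻¹ * c' ∈ D := QuotientGroup.eq.1 h
  have h2 : c' = c * ((⟨c⁻¹ * c', h1⟩ : D) : C) := by simp
  have h3 : c'⁻¹ = ((⟨c⁻¹ * c', h1⟩ : D) : C)⁻¹ * c⁻¹ := by rw [← mul_inv_rev, ← h2]
  set d : D := ⟨c⁻¹ * c', h1⟩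
  calc single c (1 : k) * a * single c⁻¹ 1
      = single c 1 * a * (single (d : C) 1 * single (d : C)⁻¹ 1) * single c⁻¹ 1 := by
        rw [single_mul_single, mul_inv_cancel, one_mul, ← MonoidAlgebra.one_def, mul_one]
    _ = single c 1 * (a * single (d : C) 1) * (single (d : C)⁻¹ 1 * single c⁻¹ 1) := by
        simp only [mul_assoc]
    _ = single c 1 * (single (d : C) 1 * a) * (single (d : C)⁻¹ 1 * single c⁻¹ 1) := by
        rw [hdj]
    _ = (single c 1 * single (d : C) 1) * a * (single (d : C)⁻¹ 1 * single c⁻¹ 1) := by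
        simp only [mul_assoc]
    _ = single c' 1 * a * single c'⁻¹ 1 := by
        rw [single_mul_single, single_mul_single, one_mul, ← h2, ← h3]

theorem trC_central [Fintype (C ⧸ D)] (hD : ∀ d ∈ D, ∀ c, d * c = c * d)
    (a x : MonoidAlgebra k C) : x * trC D a = trC D a * x := by
  have key : ∀ c : C, single c (1 : k) * trC D a = trC D a * single c 1 := by
    intro c
    rw [trC, Finset.sum_mul, Finset.mul_sum]
    refine Fintype.sum_equiv (Equiv.mulLeft (QuotientGroup.mk c : C ⧸ D)) _ _ fun h => ?_
    rw [Equiv.coe_mulLeft, conj_dep hD a (c := ((QuotientGroup.mk c : C ⧸ D) * h).out)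
      (c' := c * h.out) (by rw [QuotientGroup.out_eq', QuotientGroup.mk_mul,
        QuotientGroup.out_eq']), mul_assoc _ (single (c * h.out)⁻¹ (1 : k)), single_mul_single,
      mul_inv_rev, inv_mul_cancel_right, mul_one, ← mul_assoc, ← mul_assoc, single_mul_single,
      mul_one]
  induction x using MonoidAlgebra.induction_linear with
  | zero => rw [zero_mul, mul_zero]
  | add a b ha hb => rw [add_mul, mul_add, ha, hb]
  | single g c =>
    have : single g c = c • single g (1 : k) := by rw [smul_single, smul_eq_mul, mul_one]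
    rw [this, smul_mul_assoc, mul_smul_comm, key]

theorem trC_mul [Fintype (C ⧸ D)] {e : MonoidAlgebra k C} (he : ∀ x, x * e = e * x)
    (a : MonoidAlgebra k C) : trC D a * e = trC D (a * e) := by
  rw [trC, trC, Finset.sum_mul]
  refine Finset.sum_congr rfl fun h _ => ?_
  rw [mul_assoc _ (single h.out⁻¹ (1 : k)), he (single h.out⁻¹ 1), ← mul_assoc,
    mul_assoc _ a e]

end TrC

section Main

variable {k C : Type*} [Field k] [Group C] [Fintype C] {D : Subgroup C} [D.Normal]
  {e y : MonoidAlgebra k C}

/-- nilpotent elements of a local corner vanish modulo `D` -/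
theorem q_nil [Fintype (C ⧸ D)] (hec : ∀ x, x * e = e * x) (hey : e = trC D y)
    {j : MonoidAlgebra k C} (hjj : j * j = j) (hj0 : j ≠ 0) (hej : e * j = j)
    (hloc : LocJ (fun _ => True) j) {ν : MonoidAlgebra k C} (h1 : j * ν = ν) (h2 : ν * j = ν)
    (hν : IsNilpotent ν) : qD k D ν = 0 := by
  have hna : ∀ a, IsNilpotent (ν * a) := by
    intro a
    rcases hloc (j * a * ν) trivial (by rw [← mul_assoc, ← mul_assoc, hjj])
      (by rw [mul_assoc, h2]) with ⟨m, hm⟩ | ⟨w, hw1, hw2, hw3, hw4⟩
    · refine ⟨m + 1, ?_⟩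
      have h3 : ∀ m : ℕ, (ν * a) ^ (m + 1) = ν * (j * a * ν) ^ m * a := by
        intro m
        induction m with
        | zero => rw [zero_add, pow_one, pow_zero, mul_one]
        | succ m ih =>
          rw [pow_succ, ih, pow_succ]
          have : a * (ν * a) = a * (j * ν) * a := by rw [h1, mul_assoc]
          calc ν * (j * a * ν) ^ m * a * (ν * a)
              = ν * (j * a * ν) ^ m * (a * ν) * a := by simp only [mul_assoc]
            _ = ν * ((j * a * ν) ^ m * (j * a * ν)) * a := ?_
          cases m with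
          | zero =>
            rw [pow_zero, mul_one, one_mul]
            rw [mul_assoc j a ν, ← mul_assoc ν j, h2]
          | succ m =>
            have h4 : (j * a * ν) ^ (m + 1) * j = (j * a * ν) ^ (m + 1) := by
              rw [pow_succ, mul_assoc, mul_assoc (j * a) ν j, h2]
            rw [mul_assoc j a ν, ← mul_assoc _ j (a * ν), ← mul_assoc j a ν, h4]
            simp only [mul_assoc]
      rw [h3, hm, mul_zero, zero_mul]
    · exfalso
      obtain ⟨m, hm⟩ := hν
      have hb : (w * a) * ν = j := by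
        rw [← hw4, ← mul_assoc, ← mul_assoc, hw2]
      have h3 : ∀ m : ℕ, (w * a) ^ (m + 1) * ν ^ (m + 1) = j := by
        intro m
        induction m with
        | zero => rw [zero_add, pow_one, pow_one, hb]
        | succ m ih =>
          rw [pow_succ, pow_succ' ν (m + 1), mul_assoc, ← mul_assoc (w * a) ν, hb, pow_succ' ν m,
            ← mul_assoc j ν, h1, ← pow_succ', ih]
      apply hj0
      rw [← h3 m, pow_succ ν, hm, zero_mul, mul_zero]
  have h3 : ∀ a, IsNilpotent (qD k D ν * a) := by
    intro a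
    obtain ⟨a, rfl⟩ := qD_surj a
    rw [← map_mul]
    exact (hna a).map _
  refine eq_zero_of_nil (y := qD k D y) (e := qD k D e) ?_ ?_ h3
  · rw [hey, qD_trC]
  · rw [← map_mul, ← h2, mul_assoc, hec, hej]

end Main

theorem cent : CENT := by
  classical
  intro p _ k _ _ _ C _ _ D hDp hD e hB hRT j hjj hj0 hej hloc
  have hDn : D.Normal := ⟨fun d hd c => by rw [← hD d hd c, mul_inv_cancel_right]; exact hd⟩
  obtain ⟨hcen, hee, he0, hprim⟩ := hB
  obtain ⟨y, -, hy⟩ := hRT
  have hec : ∀ x, x * e = e * x := fun x => (Subalgebra.mem_center_iff.1 hcen x)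
  have hey : e = trC D y := by
    rw [hy, finsum_eq_sum_of_fintype]
    rfl
  have hqe : qD k D e = trH (qD k D y) := by rw [hey, qD_trC]
  refine ⟨fun ν h1 h2 hν => norm_mul_eq_zero hD (q_nil hec hey hjj hj0 hej hloc h1 h2 hν), ?_⟩
  intro j' hjj' hj0' hej' hloc'
  by_contra! hcon
  have hcon' : ∀ x y, IsNilpotent (j * y * j' * x * j) := fun x y => hcon x y
  -- the products vanish in the quotient
  have hq0 : ∀ x y, qD k D (j * y * j' * x * j) = 0 := fun x y =>
    q_nil hec hey hjj hj0 hej hloc (by simp only [← mul_assoc, hjj]) (by rw [mul_assoc, hjj])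
      (hcon' x y)
  have hz : ∀ x, qD k D (j * x * j') = 0 := by
    intro x
    refine eq_zero_of_nil (y := qD k D y) (e := qD k D e) hqe ?_ ?_
    · rw [← map_mul, mul_assoc, hec, hej']
    · intro a
      obtain ⟨a, rfl⟩ := qD_surj a
      refine ⟨2, ?_⟩
      have h5 : (j * x * j' * a) ^ 2 = (j * x * j' * a * j) * (x * j' * a) := by
        rw [pow_two]
        simp only [mul_assoc]
      rw [← map_mul, ← map_pow, h5, map_mul, hq0, zero_mul]
  have hqj : qD k D j ≠ 0 := fun h => hj0 (q_ne_zero hD hDp hjj h)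
  have hqj' : qD k D j' ≠ 0 := fun h => hj0' (q_ne_zero hD hDp hjj' h)
  obtain ⟨h, hh⟩ : ∃ h, (qD k D j).coeff h ≠ 0 := by
    by_contra! hc
    apply hqj
    rw [← coeff_eq_zero]
    ext g
    exact hc g
  set w : MonoidAlgebra k C := single h.out⁻¹ 1 with hw
  have htw : t1 (qD k D (j * w)) ≠ 0 := by
    rw [map_mul, hw, qD_single, QuotientGroup.mk_inv, QuotientGroup.out_eq', t1_apply,
      coeff_mul_single_apply, inv_inv, one_mul, mul_one]
    exact hh
  set c := trC D (j * w) with hc
  have hjwe : j * w * e = j * w := by rw [mul_assoc, hec, ← mul_assoc, hec, hej]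
  have hce : c * e = c := by rw [hc, trC_mul hec, hjwe]
  have hcc : ∀ x, x * c = c * x := trC_central hD _
  have hqc : qD k D c ≠ 0 := by
    intro h0
    apply htw
    have h6 : t1 (qD k D c * qD k D y) = t1 (qD k D (j * w)) := by
      rw [hc, qD_trC, t1_trH, ← hqe, ← map_mul, hjwe]
    rw [← h6, h0, zero_mul, map_zero]
  obtain ⟨n, f, y', hf, hy', hff, hf1, hf2⟩ := Vale.P179.H875.fitting_center (k := k) c
    (Subring.mem_center_iff.2 hcc)
  have hfe : f * e = f := by
    rw [← hf2, mul_assoc, hec, ← mul_assoc, pow_succ, mul_assoc _ c e, hce]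
  rcases hprim f (Subalgebra.mem_center_iff.2 (Subring.mem_center_iff.1 hf)) hff hfe with rfl | rfl
  · apply hqc
    refine eq_zero_of_nil (y := qD k D y) (e := qD k D e) hqe (by rw [← map_mul, hce]) ?_
    intro a
    obtain ⟨a, rfl⟩ := qD_surj a
    rw [← map_mul]
    refine IsNilpotent.map ?_ _
    refine ⟨n + 1, ?_⟩
    rw [(show Commute c a from (hcc a).symm).mul_pow, ← hf1, mul_zero, zero_mul]
  · apply hqj'
    have h7 : qD k D c * qD k D j' = 0 := by
      rw [hc, qD_trC, trH, Finset.sum_mul]
      refine Finset.sum_eq_zero fun g _ => ?_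
      have h8 : single g⁻¹ (1 : k) = qD k D (single g.out⁻¹ 1) := by
        rw [qD_single, QuotientGroup.mk_inv, QuotientGroup.out_eq']
      rw [h8, mul_assoc, mul_assoc, ← map_mul, ← map_mul, ← mul_assoc, mul_assoc j w, hz, mul_zero]
    have h9 : j' = (c ^ n * y') * (c * j') := by
      rw [mul_assoc, ← mul_assoc y', hcc, mul_assoc c y', ← mul_assoc, ← pow_succ, ← mul_assoc,
        hf2, hej']
    rw [h9, map_mul, map_mul _ c, h7, mul_zero]

end Vale.P179.H904
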