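import Vale.Agent.P179.H904.Wm2
import Vale.Agent.P179.H815.Root

/-!
# Module WMOD of the ALLB project (P179)
-/

namespace Vale.P179.H904

theorem wmodr : Allb.WMODR :=
  wmodr_of fun p _ k _ _ _ A _ _ _ e he f hf => H815.exists_root p k A e he f hf

theorem wmod : Allb.WMOD := by
  intro p _ k _ _ _ D _ _ τ e _ hTW Q _ hQ
  exact wmodr p k D τ e hTW.toTW0 Q hQ

end Vale.P179.H904
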