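import Vale.Agent.P179.H904.Sig2
import Vale.Agent.P179.H737.Neg

/-!
Assembly of the signature argument: from the identities (A1)-(A4) to `e ≤ l`.
-/

namespace Vale.P179.H904

open Matrix
open scoped ComplexOrder

section asm

variable {ι κ : Type*} [Fintype ι] [Fintype κ] [DecidableEq ι] [DecidableEq κ]

/-- Left cancellation of a matrix with nonzero determinant. -/
theorem left_cancel {m : Type*} {C : Matrix κ κ ZQ} (h : C.det ≠ 0) {X Y : Matrix κ m ZQ}
    (hXY : C * X = C * Y) : X = Y := by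
  have h0 : C * (X - Y) = 0 := by rw [Matrix.mul_sub, hXY, sub_self]
  have h1 : C.adjugate * (C * (X - Y)) = 0 := by rw [h0]; simp
  rw [← Matrix.mul_assoc, Matrix.adjugate_mul, Matrix.smul_mul, Matrix.one_mul] at h1
  refine Matrix.ext fun i j => ?_
  have h2 := congrFun (congrFun h1 i) j
  simp only [Matrix.smul_apply, smul_eq_mul, Matrix.zero_apply, Matrix.sub_apply] at h2
  exact sub_eq_zero.mp ((mul_eq_zero.mp h2).resolve_left h)

/-- Right cancellation of a matrix with nonzero determinant. -/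
theorem right_cancel {m : Type*} {C : Matrix κ κ ZQ} (h : C.det ≠ 0) {X Y : Matrix m κ ZQ}
    (hXY : X * C = Y * C) : X = Y := by
  have h0 : (X - Y) * C = 0 := by rw [Matrix.sub_mul, hXY, sub_self]
  have h1 : ((X - Y) * C) * C.adjugate = 0 := by rw [h0]; simp
  rw [Matrix.mul_assoc, Matrix.mul_adjugate, Matrix.mul_smul, Matrix.mul_one] at h1
  refine Matrix.ext fun i j => ?_
  have h2 := congrFun (congrFun h1 i) j
  simp only [Matrix.smul_apply, smul_eq_mul, Matrix.zero_apply, Matrix.sub_apply] at h2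
  exact sub_eq_zero.mp ((mul_eq_zero.mp h2).resolve_left h)

theorem ct_injective {m n : Type*} : Function.Injective (ct : Matrix m n ZQ → Matrix n m ZQ) :=
  fun A B h => by rw [← ct_ct A, h, ct_ct]

/-- **(ASM)**: the three identities and the two twists give the inequality. -/
theorem asm {N : ℚ} {CH W : Matrix κ κ ZQ} {CB z : Matrix ι ι ZQ} {y u : Matrix κ ι ZQ}
    (A4H : ct CH = tq (-N) • CH) (A4B : ct CB = tq (-N) • CB)
    (A1 : CH * u = y * CB) (A2 : y * ct u = 1 + CH * W) (A3 : ct u * y = 1 + CB * z)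
    (hpos : (ev 0 CH).PosDef) (θ₀ : ℝ) (hneg : (-(ev θ₀ (tq (-N / 2) • CH))).PosDef) :
    Fintype.card κ ≤ Fintype.card ι := by
  have hdet : CH.det ≠ 0 := by
    intro h
    have h1 := hpos.det_pos
    rw [ev_det, h, map_zero] at h1
    exact lt_irrefl _ h1
  -- (i2)
  have i2 : CB * ct y = ct u * CH := by
    have h1 := congrArg ct A1
    rw [ct_mul, ct_mul, A4H, A4B, Matrix.smul_mul, Matrix.mul_smul] at h1
    have h2 := congrArg (fun M => tq N • M) h1
    simp only [smul_smul, tq_mul, add_neg_cancel, tq_zero, one_smul] at h2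
    exact h2.symm
  -- (i3)
  have i3 : u * ct y = 1 + W * CH := by
    apply left_cancel hdet
    rw [← Matrix.mul_assoc, A1, Matrix.mul_assoc, i2, ← Matrix.mul_assoc, A2]
    rw [Matrix.add_mul, Matrix.mul_add, Matrix.one_mul, Matrix.mul_one, Matrix.mul_assoc]
  -- `CB` is nonsingular
  have hdetB : CB.det ≠ 0 := by
    intro h0
    obtain ⟨w, hw0, hw⟩ := Matrix.exists_vecMul_eq_zero_iff.mpr h0
    apply hw0
    have h1 : w ᵥ* (ct u * CH) = 0 := by
      rw [← i2, ← Matrix.vecMul_vecMul, hw, Matrix.zero_vecMul]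
    have h2 : w ᵥ* ct u = 0 := by
      have h3 : (w ᵥ* (ct u * CH)) ᵥ* CH.adjugate = 0 := by rw [h1, Matrix.zero_vecMul]
      rw [Matrix.vecMul_vecMul, Matrix.mul_assoc, Matrix.mul_adjugate, Matrix.mul_smul,
        Matrix.mul_one] at h3
      refine funext fun j => ?_
      have h4 := congrFun h3 j
      rw [Matrix.vecMul_smul] at h4
      simp only [Pi.smul_apply, smul_eq_mul, Pi.zero_apply] at h4
      exact (mul_eq_zero.mp h4).resolve_left hdet
    have h5 : w ᵥ* (ct u * y) = w := by
      rw [A3, Matrix.vecMul_add, Matrix.vecMul_one, ← Matrix.vecMul_vecMul, hw,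
        Matrix.zero_vecMul, add_zero]
    rw [← Matrix.vecMul_vecMul, h2, Matrix.zero_vecMul] at h5
    exact h5.symm
  -- (i6)
  have i6 : ct y * u = 1 + z * CB := by
    apply left_cancel hdetB
    rw [← Matrix.mul_assoc, i2, Matrix.mul_assoc, A1, ← Matrix.mul_assoc, A3]
    rw [Matrix.add_mul, Matrix.mul_add, Matrix.one_mul, Matrix.mul_one, Matrix.mul_assoc]
  exact sig_ineq A4H A4B A1.symm i2 i3 A2 A3 i6 hpos θ₀ hneg

end asm

section model

open Vale.Agent.P179.H737

/-- The graded Cartan matrix of the model algebra. -/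
noncomputable def CHz (e N c : ℕ) : Matrix (ZMod e) (ZMod e) ZQ :=
  Matrix.of fun a b => ∑ w ∈ Finset.range N,
    AddMonoidAlgebra.single ((w : ℕ) : ℚ) (((if (w : ZMod e) = b - a then 1 else 0) + c : ℕ) : ℤ)

theorem CHz_apply (e N c : ℕ) (a b : ZMod e) : CHz e N c a b = ∑ w ∈ Finset.range N,
    AddMonoidAlgebra.single ((w : ℕ) : ℚ)
      (((if (w : ZMod e) = b - a then 1 else 0) + c : ℕ) : ℤ) := rfl

theorem ev_CHz (e N c : ℕ) [NeZero e] (θ : ℝ) :
    ev θ (tq (-((N : ℚ) - 1) / 2) • CHz e N c) = HN e N c θ := by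
  refine Matrix.ext fun a b => ?_
  rw [ev_smul]
  simp only [Matrix.smul_apply, smul_eq_mul, ev, Matrix.map_apply, CHz_apply, map_sum,
    evq_single, evq_tq, HN, Matrix.of_apply, fN]
  congr 1
  · unfold ph
    congr 1
    push_cast
    ring
  · refine Finset.sum_congr rfl fun w _ => ?_
    rw [mul_comm]
    congr 1
    · unfold ph
      congr 1
      push_cast
      ring
    · push_cast
      split_ifs <;> simp

theorem ct_CHz {e N M : ℕ} (hM : N = e * M + 1) (c : ℕ) :
    ct (CHz e N c) = tq (-((N : ℚ) - 1)) • CHz e N c := by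
  refine Matrix.ext fun a b => ?_
  rw [ct_apply]
  simp only [Matrix.smul_apply, smul_eq_mul, CHz_apply, map_sum, barQ_single, Finset.mul_sum]
  rw [← Finset.sum_range_reflect]
  refine Finset.sum_congr rfl fun w hw => ?_
  have hwN : w < N := Finset.mem_range.mp hw
  have h1 : ((N - 1 - w : ℕ) : ℚ) = (N : ℚ) - 1 - w := by
    rw [Nat.cast_sub (by omega), Nat.cast_sub (by omega)]
    simp
  have h2 : ((N - 1 - w : ℕ) : ZMod e) = -(w : ZMod e) := by
    have : N - 1 - w + w = e * M := by omega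
    have h3 := congrArg (Nat.cast : ℕ → ZMod e) this
    push_cast at h3
    rw [ZMod.natCast_self, zero_mul] at h3
    exact eq_neg_of_add_eq_zero_left h3
  rw [tq, AddMonoidAlgebra.single_mul_single, one_mul, h1, h2]
  congr 1
  · ring
  · have h4 : (-(w : ZMod e) = a - b) ↔ ((w : ZMod e) = b - a) := by
      constructor
      · intro h
        rw [← neg_neg (w : ZMod e), h]
        ring
      · intro h
        rw [h]
        ring
    simp only [h4]

/-- **Final numbers theorem**: `e ≤ l` from the identities over `ZQ`. -/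
theorem e_le_card {ι : Type*} [Fintype ι] [DecidableEq ι] {e N M c : ℕ} [NeZero e]
    (hM : N = e * M + 1) (hM1 : 1 ≤ M) {W : Matrix (ZMod e) (ZMod e) ZQ}
    {CB z : Matrix ι ι ZQ} {y u : Matrix (ZMod e) ι ZQ}
    (A4B : ct CB = tq (-((N : ℚ) - 1)) • CB)
    (A1 : CHz e N c * u = y * CB) (A2 : y * ct u = 1 + CHz e N c * W)
    (A3 : ct u * y = 1 + CB * z) : e ≤ Fintype.card ι := by
  have hpos : (ev 0 (CHz e N c)).PosDef := by
    have h1 := HN_posDef (e := e) hM (c := (c : ℝ)) (by positivity)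
    rw [← ev_CHz, ev_smul] at h1
    simpa using h1
  have hneg : (-(ev (th0 e N) (tq (-((N : ℚ) - 1) / 2) • CHz e N c))).PosDef := by
    rw [ev_CHz]
    exact HN_negDef (e := e) hM hM1 (by positivity)
  have := asm (ct_CHz hM c) A4B A1 A2 A3 hpos (th0 e N) hneg
  simpa [ZMod.card] using this

end model

end Vale.P179.H904
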