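import Vale.Agent.P179.H904.Res2
import Vale.Agent.P179.Rel.Defs

/-!
# Module RES (P179, REL): the block hypothesis from a free factor, and its inheritance
-/

set_option autoImplicit false
set_option linter.unusedSectionVars false

namespace Vale.P179.H904

open Subgroup

variable {k G : Type} [Field k] [Group G]

/-- the block hypothesis is: `D` abelian, cyclic inertial quotient, and a free factor -/
theorem bhyp_iff {D D1 D2 : Subgroup G}
    {b : MonoidAlgebra k (Subgroup.centralizer (D : Set G))} :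
    Rel.BHyp D D1 D2 b ↔ (∀ x ∈ D, ∀ y ∈ D, x * y = y * x) ∧
      (∃ t ∈ P179B.inertialGroup D b, ∀ n ∈ P179B.inertialGroup D b, ∃ i : ℕ,
        t ^ i * n ∈ Subgroup.centralizer (D : Set G)) ∧
      FreeFactor (P179B.inertialGroup D b) D D1 D2 := by
  constructor
  · intro h
    exact ⟨h.comm, h.cyc, h.dis, h.sup, h.s1, h.s2, h.ne,
      fun n hn d hd hd1 hnd => (h.free1 d hd hd1).2 n hn hnd⟩
  · rintro ⟨h1, h2, h3⟩
    exact ⟨h1, h2, h3.n1, h3.n2, h3.inf, h3.sup, h3.ne,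
      fun u hu hu1 => ⟨h3.sup ▸ (le_sup_left : D1 ≤ D1 ⊔ D2) hu,
        fun n hn hnu => h3.free n hn u hu hu1 hnu⟩⟩

/-- cyclic inertial quotients of prime power order have a free factor -/
theorem exists_bhyp [Finite G] {p : ℕ} [Fact p.Prime] {D : Subgroup G} (hD : IsPGroup p D)
    {b : MonoidAlgebra k (Subgroup.centralizer (D : Set G))}
    (hab : ∀ x ∈ D, ∀ y ∈ D, x * y = y * x)
    (hcyc : ∃ t ∈ P179B.inertialGroup D b, ∀ n ∈ P179B.inertialGroup D b, ∃ i : ℕ,
      t ^ i * n ∈ Subgroup.centralizer (D : Set G))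
    (hp : ¬ p ∣ P179B.inertialIndex D b) (hpp : IsPrimePow (P179B.inertialIndex D b)) :
    ∃ D1 D2 : Subgroup G, Rel.BHyp D D1 D2 b := by
  obtain ⟨l, m, hl, hm, he⟩ := hpp
  obtain ⟨t, ht, htc⟩ := hcyc
  have hc : (l ^ m).Coprime (Nat.card D) := by
    obtain ⟨n, hn⟩ := IsPGroup.iff_card.mp hD
    rw [hn, he]
    exact ((Nat.Prime.coprime_iff_not_dvd Fact.out).mpr hp).symm.pow_right n
  obtain ⟨D1, D2, h⟩ := exists_freeFactor (T := P179B.inertialGroup D b) (D := D) hab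
    (fun n hn => hn.1) ht htc hl.nat_prime hm.ne' he.symm hc
  exact ⟨D1, D2, bhyp_iff.mpr ⟨hab, ⟨t, ht, htc⟩, h⟩⟩

/-- the free factor in a subgroup containing `D`: same factors -/
theorem FreeFactor.subgroupOf {T D D1 D2 H : Subgroup G} (h : FreeFactor T D D1 D2)
    (hDH : D ≤ H) {T' : Subgroup H} (hT : ∀ n : H, n ∈ T' → (n : G) ∈ T) :
    FreeFactor T' (D.subgroupOf H) (D1.subgroupOf H) (D2.subgroupOf H) := by
  have h1D : D1 ≤ D := h.sup ▸ le_sup_left
  have h2D : D2 ≤ D := h.sup ▸ le_sup_right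
  have hinj := H.subtype_injective
  refine ⟨?_, ?_, ?_, ?_, ?_, ?_⟩
  · rw [eq_bot_iff]
    intro x hx
    have h1 : (x : G) ∈ D1 ⊓ D2 := Subgroup.mem_inf.mpr ⟨hx.1, hx.2⟩
    rw [h.inf, mem_bot] at h1
    exact mem_bot.mpr (Subtype.ext h1)
  · apply Subgroup.map_injective hinj
    rw [Subgroup.map_sup, Subgroup.map_subgroupOf_eq_of_le (h1D.trans hDH),
      Subgroup.map_subgroupOf_eq_of_le (h2D.trans hDH), Subgroup.map_subgroupOf_eq_of_le hDH,
      h.sup]
  · intro n hn d hd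
    exact h.n1 n (hT n hn) d hd
  · intro n hn d hd
    exact h.n2 n (hT n hn) d hd
  · intro hb
    apply h.ne
    rw [← Subgroup.map_subgroupOf_eq_of_le (h1D.trans hDH), hb, Subgroup.map_bot]
  · intro n hn d hd hd1 hnd
    rw [mem_centralizer_iff]
    intro x hx
    refine Subtype.ext ?_
    exact (mem_centralizer_iff.mp (h.free n (hT n hn) d hd (fun he => hd1 (Subtype.ext he))
      (congrArg Subtype.val hnd))) x hx

/-- inheritance of the block hypothesis to a subgroup `H ≥ D` -/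
theorem bhyp_subgroupOf {D D1 D2 H : Subgroup G}
    {b : MonoidAlgebra k (Subgroup.centralizer (D : Set G))} (h : Rel.BHyp D D1 D2 b)
    (hDH : D ≤ H)
    {b' : MonoidAlgebra k (Subgroup.centralizer ((D.subgroupOf H : Subgroup H) : Set H))}
    (hT : ∀ n : H, n ∈ P179B.inertialGroup (D.subgroupOf H) b' → (n : G) ∈ P179B.inertialGroup D b)
    (hcyc : ∃ t ∈ P179B.inertialGroup (D.subgroupOf H) b',
      ∀ n ∈ P179B.inertialGroup (D.subgroupOf H) b', ∃ i : ℕ,
      t ^ i * n ∈ Subgroup.centralizer ((D.subgroupOf H : Subgroup H) : Set H)) :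
    Rel.BHyp (D.subgroupOf H) (D1.subgroupOf H) (D2.subgroupOf H) b' := by
  obtain ⟨h1, -, h3⟩ := bhyp_iff.mp h
  exact bhyp_iff.mpr ⟨fun x hx y hy => Subtype.ext (h1 x hx y hy), hcyc,
    h3.subgroupOf hDH hT⟩

/-- elements outside `D2` are regular -/
theorem bhyp_regular {D D1 D2 : Subgroup G}
    {b : MonoidAlgebra k (Subgroup.centralizer (D : Set G))} (h : Rel.BHyp D D1 D2 b) {u : G}
    (hu : u ∈ D) (hu2 : u ∉ D2) : u ∈ P179B.regularElements D b :=
  ⟨hu, fun _ hn hnu => (bhyp_iff.mp h).2.2.central_of_notMem h.comm hn hu hu2 hnu⟩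

end Vale.P179.H904
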