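import Mathlib

/-!
# Module START/CENT of the ALLB project (P179), part 1: traces on a group algebra
-/

set_option autoImplicit false
set_option linter.unusedSectionVars false

namespace Vale.P179.H904

open MonoidAlgebra Module

section Trace

variable {k H : Type*} [Field k] [Group H]

/-- the coefficient of `1` -/
noncomputable def t1 : MonoidAlgebra k H →ₗ[k] k where
  toFun x := x.coeff 1
  map_add' _ _ := rfl
  map_smul' _ _ := rfl

theorem t1_apply (x : MonoidAlgebra k H) : t1 x = x.coeff 1 := rfl

theorem t1_single_comm (g : H) (c : k) (x : MonoidAlgebra k H) :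
    t1 (single g c * x) = t1 (x * single g c) := by
  rw [t1_apply, t1_apply, coeff_single_mul_apply, coeff_mul_single_apply, one_mul, mul_one,
    mul_comm]

theorem t1_comm (x y : MonoidAlgebra k H) : t1 (x * y) = t1 (y * x) := by
  induction x using MonoidAlgebra.induction_linear with
  | zero => rw [zero_mul, mul_zero]
  | add a b ha hb => rw [add_mul, mul_add, map_add, map_add, ha, hb]
  | single g c => exact t1_single_comm g c y

theorem t1_nondeg {x : MonoidAlgebra k H} (h : ∀ y, t1 (x * y) = 0) : x = 0 := by
  rw [← coeff_eq_zero]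
  ext g
  have := h (single g⁻¹ 1)
  rwa [t1_apply, coeff_mul_single_apply, inv_inv, one_mul, mul_one] at this

variable [Fintype H]

/-- the trace `∑ g z g⁻¹` -/
noncomputable def trH (z : MonoidAlgebra k H) : MonoidAlgebra k H :=
  ∑ g : H, single g 1 * z * single g⁻¹ 1

theorem t1_trH (z v : MonoidAlgebra k H) : t1 (trH z * v) = t1 (z * trH v) := by
  rw [trH, trH, Finset.sum_mul, Finset.mul_sum, map_sum, map_sum]
  refine Fintype.sum_equiv (Equiv.inv H) _ _ fun g => ?_
  rw [Equiv.inv_apply, inv_inv, mul_assoc, mul_assoc, t1_single_comm, mul_assoc, mul_assoc]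

theorem trH_comm (z : MonoidAlgebra k H) (h : H) :
    single h 1 * trH z = trH z * single h (1 : k) := by
  rw [trH, Finset.sum_mul, Finset.mul_sum]
  refine Fintype.sum_equiv (Equiv.mulLeft h) _ _ fun g => ?_
  rw [Equiv.coe_mulLeft, mul_assoc _ (single (h * g)⁻¹ (1 : k)), single_mul_single, mul_inv_rev,
    inv_mul_cancel_right, mul_one, ← mul_assoc, ← mul_assoc, single_mul_single, mul_one]

theorem trH_central (z a : MonoidAlgebra k H) : a * trH z = trH z * a := by
  induction a using MonoidAlgebra.induction_linear with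
  | zero => rw [zero_mul, mul_zero]
  | add a b ha hb => rw [add_mul, mul_add, ha, hb]
  | single g c =>
    have : single g c = c • single g (1 : k) := by rw [smul_single, smul_eq_mul, mul_one]
    rw [this, smul_mul_assoc, mul_smul_comm, trH_comm]

/-- **T1**: the trace of a nilpotent element vanishes -/
theorem trH_nil {z : MonoidAlgebra k H} (hz : IsNilpotent z) : trH z = 0 := by
  classical
  refine t1_nondeg fun v => ?_
  let f : MonoidAlgebra k H →ₗ[k] MonoidAlgebra k H :=
    (LinearMap.mulLeft k z) ∘ₗ (LinearMap.mulRight k v)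
  have hf : IsNilpotent f := by
    obtain ⟨n, hn⟩ := hz
    refine ⟨n, ?_⟩
    have hc : Commute (LinearMap.mulLeft k z) (LinearMap.mulRight k v) := by
      refine LinearMap.ext fun x => ?_
      change z * (x * v) = (z * x) * v
      rw [mul_assoc]
    change ((LinearMap.mulLeft k z) * (LinearMap.mulRight k v)) ^ n = 0
    rw [hc.mul_pow, LinearMap.pow_mulLeft, hn]
    refine LinearMap.ext fun x => ?_
    simp
  have h1 : LinearMap.trace k _ f = 0 :=
    (LinearMap.isNilpotent_trace_of_isNilpotent hf).eq_zero
  rw [LinearMap.trace_eq_matrix_trace k (MonoidAlgebra.basis H k), Matrix.trace] at h1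
  rw [← h1, trH, Finset.sum_mul, map_sum]
  refine Fintype.sum_equiv (Equiv.inv H) _ _ fun g => ?_
  rw [Equiv.inv_apply, Matrix.diag_apply, LinearMap.toMatrix_apply, MonoidAlgebra.basis_apply]
  change _ = (z * (single g⁻¹ 1 * v)).coeff g⁻¹
  rw [mul_assoc, mul_assoc, t1_single_comm, t1_apply, coeff_mul_single_apply, one_mul, mul_one]

/-- **T2** -/
theorem eq_zero_of_nil {ν y e : MonoidAlgebra k H} (he : e = trH y) (hν : ν * e = ν)
    (hn : ∀ a, IsNilpotent (ν * a)) : ν = 0 := by
  refine t1_nondeg fun a => ?_
  have h1 : ν * a = (ν * a) * trH y := by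
    rw [mul_assoc, trH_central, ← mul_assoc, ← he, hν]
  rw [h1, ← t1_trH, trH_nil (hn a), zero_mul, map_zero]

end Trace

end Vale.P179.H904
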