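import Vale.Agent.P179.H904.Cent1
import Vale.Agent.P179.H580.Tate
import Vale.Agent.P179.H875.Corner

/-!
# Module START/CENT of the ALLB project (P179), part 2: a central subgroup
-/

set_option autoImplicit false
set_option linter.unusedSectionVars false

namespace Vale.P179.H904

open MonoidAlgebra Module

section Quot

variable {k C : Type*} [Field k] [Group C] {D : Subgroup C} [D.Normal]

/-- the projection to the quotient group -/
noncomputable def qD (k : Type*) [Field k] {C : Type*} [Group C] (D : Subgroup C) [D.Normal] :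
    MonoidAlgebra k C →ₐ[k] MonoidAlgebra k (C ⧸ D) :=
  MonoidAlgebra.mapDomainAlgHom k k (QuotientGroup.mk' D)

theorem qD_single (c : C) (a : k) :
    qD k D (single c a) = single (QuotientGroup.mk c : C ⧸ D) a := by
  rw [qD, MonoidAlgebra.mapDomainAlgHom_apply, MonoidAlgebra.mapDomain_single]
  rfl

theorem qD_surj : Function.Surjective (qD k D) := by
  intro x
  induction x using MonoidAlgebra.induction_linear with
  | zero => exact ⟨0, map_zero _⟩
  | add a b ha hb =>
    obtain ⟨a', rfl⟩ := ha
    obtain ⟨b', rfl⟩ := hb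
    exact ⟨a' + b', map_add _ _ _⟩
  | single g c => exact ⟨single g.out c, by rw [qD_single, QuotientGroup.out_eq']⟩

theorem factor_q {W : Type*} [AddCommGroup W] [Module k W] (F : MonoidAlgebra k C →ₗ[k] W)
    (hF : ∀ c, ∀ d ∈ D, F (single (c * d) 1) = F (single c 1)) {x : MonoidAlgebra k C}
    (hx : qD k D x = 0) : F x = 0 := by
  let s : MonoidAlgebra k (C ⧸ D) →ₗ[k] W :=
    (MonoidAlgebra.basis (C ⧸ D) k).constr k fun h => F (single h.out 1)
  have hs : s ∘ₗ (qD k D).toLinearMap = F := by
    refine (MonoidAlgebra.basis C k).ext fun c => ?_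
    rw [MonoidAlgebra.basis_apply]
    change s (qD k D (single c 1)) = _
    rw [qD_single, ← MonoidAlgebra.basis_apply, Basis.constr_basis]
    obtain ⟨d, hd⟩ := QuotientGroup.mk_out_eq_mul D c
    rw [hd]
    exact hF c d d.2
  rw [← hs]
  change s (qD k D x) = 0
  rw [hx, map_zero]

variable [Fintype C] (hD : ∀ d ∈ D, ∀ c, d * c = c * d)

include hD

theorem norm_mul_eq_zero [Fintype D] {x : MonoidAlgebra k C} (hx : qD k D x = 0) :
    (∑ d : D, MonoidAlgebra.single (d : C) (1 : k)) * x = 0 := by
  refine factor_q (D := D) (LinearMap.mulLeft k (∑ d : D, single (d : C) (1 : k)))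
    (fun c d hd => ?_) hx
  change (∑ d : D, single (d : C) (1 : k)) * single (c * d) 1 =
    (∑ d : D, single (d : C) (1 : k)) * single c 1
  rw [Finset.sum_mul, Finset.sum_mul]
  refine Fintype.sum_equiv (Equiv.mulRight ⟨d, hd⟩) _ _ fun d' => ?_
  rw [single_mul_single, single_mul_single, Equiv.coe_mulRight, Subgroup.coe_mul, mul_assoc,
    hD d hd c]

theorem q_ne_zero {p : ℕ} [Fact p.Prime] [CharP k p] (hp : IsPGroup p D)
    {j : MonoidAlgebra k C} (hj : j * j = j) (h : qD k D j = 0) : j = 0 := by
  by_contra hj0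
  let V : Submodule k (MonoidAlgebra k C) := LinearMap.ker (LinearMap.mulLeft k j - LinearMap.id)
  have hV : ∀ x, x ∈ V ↔ j * x = x := by
    intro x
    rw [LinearMap.mem_ker, LinearMap.sub_apply, sub_eq_zero]
    rfl
  have hdj : ∀ (d : D) (a : MonoidAlgebra k C), single (d : C) (1 : k) * a = a * single (d : C) 1 := by
    intro d a
    induction a using MonoidAlgebra.induction_linear with
    | zero => rw [zero_mul, mul_zero]
    | add a b ha hb => rw [add_mul, mul_add, ha, hb]
    | single g c => rw [single_mul_single, single_mul_single, hD d d.2 g, one_mul, mul_one]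
  have hst : ∀ (d : D) (x : MonoidAlgebra k C), x ∈ V → single (d : C) (1 : k) * x ∈ V := by
    intro d x hx
    rw [hV] at hx ⊢
    rw [← mul_assoc, ← hdj, mul_assoc, hx]
  let ρ : Representation k D V :=
    { toFun := fun d => (LinearMap.mulLeft k (single (d : C) (1 : k))).restrict (hst d)
      map_one' := by
        refine LinearMap.ext fun x => Subtype.ext ?_
        change single ((1 : D) : C) (1 : k) * (x : MonoidAlgebra k C) = x
        rw [Subgroup.coe_one, ← MonoidAlgebra.one_def, one_mul]
      map_mul' := fun a b => by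
        refine LinearMap.ext fun x => Subtype.ext ?_
        change single ((a * b : D) : C) (1 : k) * (x : MonoidAlgebra k C) =
          single (a : C) (1 : k) * (single (b : C) (1 : k) * (x : MonoidAlgebra k C))
        rw [← mul_assoc, single_mul_single, one_mul, Subgroup.coe_mul] }
  have hne : Nontrivial V := ⟨⟨⟨j, (hV j).2 hj⟩, 0, fun h => hj0 (congrArg Subtype.val h)⟩⟩
  obtain ⟨v, hv0, hv⟩ := Vale.P179.H580.exists_fixed_vector hp ρ
  have hv1 : ∀ d : D, single (d : C) (1 : k) * (v : MonoidAlgebra k C) = v := fun d =>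
    congrArg Subtype.val (hv d)
  apply hv0
  apply Subtype.ext
  change (v : MonoidAlgebra k C) = 0
  have hjv : j * (v : MonoidAlgebra k C) = v := (hV _).1 v.2
  refine t1_nondeg fun y => ?_
  have h1 : ∀ z : MonoidAlgebra k C, t1 (z * ((v : MonoidAlgebra k C) * y)) =
      (t1 ∘ₗ LinearMap.mulRight k ((v : MonoidAlgebra k C) * y)) z := fun z => rfl
  rw [← hjv, mul_assoc, h1]
  refine factor_q (D := D) _ (fun c d hd => ?_) h
  change t1 (single (c * d) 1 * ((v : MonoidAlgebra k C) * y)) =
    t1 (single c 1 * ((v : MonoidAlgebra k C) * y))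
  rw [← mul_one (1 : k), ← single_mul_single, mul_assoc, ← mul_assoc (single d (1 : k)),
    hv1 ⟨d, hd⟩, mul_one]

end Quot

end Vale.P179.H904
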