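import Mathlib

/-!
# Module RESrel (P179): a coprime automorphism of prime power order acts freely on a factor
-/

set_option autoImplicit false
set_option linter.unusedSectionVars false

namespace Vale.P179.H904

section Coprime

variable {D : Type*} [CommGroup D] [Finite D]

/-- `x ↦ x⁻¹ σ(x)` -/
def dif (σ : MulAut D) : D →* D where
  toFun x := x⁻¹ * σ x
  map_one' := by simp
  map_mul' x y := by
    rw [mul_inv, map_mul, mul_mul_mul_comm]

theorem dif_apply (σ : MulAut D) (x : D) : dif σ x = x⁻¹ * σ x := rfl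

theorem mem_ker_dif {σ : MulAut D} {x : D} : x ∈ (dif σ).ker ↔ σ x = x := by
  rw [MonoidHom.mem_ker, dif_apply, inv_mul_eq_one, eq_comm]

theorem disjoint_dif {σ : MulAut D} {r : ℕ} (hr : σ ^ r = 1) (hc : r.Coprime (Nat.card D)) :
    Disjoint (dif σ).range (dif σ).ker := by
  rw [Subgroup.disjoint_def]
  rintro x ⟨d, hd⟩ hx
  rw [mem_ker_dif] at hx
  rw [dif_apply] at hd
  have hd' : σ d = d * x := by rw [← hd, mul_inv_cancel_left]
  have h1 : ∀ i : ℕ, (σ ^ i) d = d * x ^ i := by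
    intro i
    induction i with
    | zero => simp
    | succ i ih =>
      have h2 : σ (x ^ i) = x ^ i := by rw [map_pow, hx]
      rw [pow_succ', MulAut.mul_apply, ih, map_mul, h2, hd', pow_succ', mul_assoc]
  have h3 : x ^ r = 1 := by
    have := h1 r
    rw [hr, MulAut.one_apply] at this
    exact (mul_eq_left.mp this.symm)
  have h4 : x ^ Nat.card D = 1 := pow_card_eq_one'
  have h5 : orderOf x ∣ Nat.gcd r (Nat.card D) :=
    Nat.dvd_gcd (orderOf_dvd_of_pow_eq_one h3) (orderOf_dvd_of_pow_eq_one h4)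
  rw [hc.gcd_eq_one, Nat.dvd_one, orderOf_eq_one_iff] at h5
  exact h5

theorem sup_dif {σ : MulAut D} {r : ℕ} (hr : σ ^ r = 1) (hc : r.Coprime (Nat.card D)) :
    (dif σ).range ⊔ (dif σ).ker = ⊤ := by
  refine (Subgroup.isComplement'_of_card_mul_and_disjoint ?_ (disjoint_dif hr hc)).sup_eq_top
  rw [← Subgroup.index_ker, Subgroup.index_mul_card]

theorem stab_range {σ τ : MulAut D} (h : Commute τ σ) {x : D} (hx : x ∈ (dif σ).range) :
    τ x ∈ (dif σ).range := by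
  obtain ⟨d, rfl⟩ := hx
  refine ⟨τ d, ?_⟩
  rw [dif_apply, dif_apply, map_mul, map_inv, ← MulAut.mul_apply, ← MulAut.mul_apply, h.eq]

theorem stab_ker {σ τ : MulAut D} (h : Commute τ σ) {x : D} (hx : x ∈ (dif σ).ker) :
    τ x ∈ (dif σ).ker := by
  rw [mem_ker_dif] at hx ⊢
  rw [← MulAut.mul_apply, ← h.eq, MulAut.mul_apply, hx]

theorem pow_gcd_fix {τ : MulAut D} {e i : ℕ} (he : τ ^ e = 1) {d : D} (h : (τ ^ i) d = d) :
    (τ ^ Nat.gcd i e) d = d := by
  have h1 : τ ^ i ∈ MulAction.stabilizer (MulAut D) d := h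
  have h2 : τ ^ e ∈ MulAction.stabilizer (MulAut D) d := by rw [he]; exact one_mem _
  have h3 : τ ^ Nat.gcd i e ∈ MulAction.stabilizer (MulAut D) d := by
    have h4 : τ ^ Nat.gcd i e = (τ ^ i) ^ (Nat.gcdA i e) * (τ ^ e) ^ (Nat.gcdB i e) := by
      rw [← zpow_natCast τ (Nat.gcd i e), Nat.gcd_eq_gcd_ab, zpow_add, zpow_mul, zpow_mul,
        zpow_natCast, zpow_natCast]
    rw [h4]
    exact mul_mem (zpow_mem h1 _) (zpow_mem h2 _)
  exact h3

/-- A coprime automorphism of prime power order acts freely on a nontrivial direct factor. -/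
theorem exists_free_factor {τ : MulAut D} {l m : ℕ} (hl : l.Prime) (hm : m ≠ 0)
    (hτ : τ ^ l ^ m = 1) (hc : (l ^ m).Coprime (Nat.card D))
    (hf : ∀ i : ℕ, τ ^ i = 1 → l ^ m ∣ i) :
    ∃ D1 D2 : Subgroup D, (∀ x ∈ D1, τ x ∈ D1) ∧ (∀ x ∈ D2, τ x ∈ D2) ∧ D1 ⊓ D2 = ⊥ ∧
      D1 ⊔ D2 = ⊤ ∧ D1 ≠ ⊥ ∧ ∀ i : ℕ, ∀ d ∈ D1, d ≠ 1 → (τ ^ i) d = d → l ^ m ∣ i := by
  obtain ⟨n, rfl⟩ := Nat.exists_eq_succ_of_ne_zero hm
  set σ : MulAut D := τ ^ l ^ n with hσ
  have hcom : Commute τ σ := (Commute.refl τ).pow_right _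
  have hr : σ ^ l = 1 := by rw [hσ, ← pow_mul, ← pow_succ, hτ]
  have hc' : l.Coprime (Nat.card D) := Nat.Coprime.coprime_dvd_left (dvd_pow_self l hm) hc
  have hdis := disjoint_dif hr hc'
  refine ⟨(dif σ).range, (dif σ).ker, fun x hx => stab_range hcom hx,
    fun x hx => stab_ker hcom hx, hdis.eq_bot, sup_dif hr hc', ?_, ?_⟩
  · intro hbot
    have h1 : σ = 1 := by
      ext x
      have h2 : dif σ x ∈ (dif σ).range := ⟨x, rfl⟩
      rw [hbot, Subgroup.mem_bot, dif_apply, inv_mul_eq_one] at h2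
      exact h2.symm
    have h3 := (Nat.pow_dvd_pow_iff_le_right hl.one_lt).mp (hf _ h1)
    omega
  · intro i d hd hd1 hfix
    by_contra hnd
    apply hd1
    refine (Subgroup.disjoint_def.mp hdis) hd ?_
    rw [mem_ker_dif]
    have h1 := pow_gcd_fix hτ hfix
    obtain ⟨a, ha, hga⟩ := (Nat.dvd_prime_pow hl).mp (Nat.gcd_dvd_right i (l ^ (n + 1)))
    have h2 : a ≤ n := by
      by_contra hlt
      have h3 : a = n + 1 := by omega
      apply hnd
      have h6 : l ^ (n + 1) = i.gcd (l ^ (n + 1)) := by rw [hga, h3]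
      exact (dvd_of_eq h6).trans (Nat.gcd_dvd_left _ _)
    have h4 : Nat.gcd i (l ^ (n + 1)) ∣ l ^ n := by rw [hga]; exact pow_dvd_pow l h2
    obtain ⟨c, hcc⟩ := h4
    rw [hσ, hcc, pow_mul]
    have h5 : τ ^ Nat.gcd i (l ^ (n + 1)) ∈ MulAction.stabilizer (MulAut D) d := h1
    exact pow_mem h5 c

end Coprime

end Vale.P179.H904
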