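import Vale.Agent.P179.H904.Res1

/-!
# Module RESrel (P179): free factors, subgroup form
-/

set_option autoImplicit false
set_option linter.unusedSectionVars false

namespace Vale.P179.H904

open Subgroup

/-- `D = D1 × D2`, both factors normalised by `T`, and every element of `T` which centralises a
nontrivial element of `D1 ≠ 1` centralises `D`. -/
structure FreeFactor {G : Type*} [Group G] (T D D1 D2 : Subgroup G) : Prop where
  inf : D1 ⊓ D2 = ⊥
  sup : D1 ⊔ D2 = D
  n1 : ∀ n ∈ T, ∀ d ∈ D1, n * d * n⁻¹ ∈ D1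
  n2 : ∀ n ∈ T, ∀ d ∈ D2, n * d * n⁻¹ ∈ D2
  ne : D1 ≠ ⊥
  free : ∀ n ∈ T, ∀ d ∈ D1, d ≠ 1 → n * d * n⁻¹ = d → n ∈ centralizer (D : Set G)

variable {G : Type*} [Group G]

theorem exists_freeFactor [Finite G] {T D : Subgroup G} (hab : ∀ x ∈ D, ∀ y ∈ D, x * y = y * x)
    (hTN : T ≤ normalizer (D : Set G)) {t : G} (ht : t ∈ T)
    (hcyc : ∀ n ∈ T, ∃ i : ℕ, t ^ i * n ∈ centralizer (D : Set G)) {l m : ℕ} (hl : l.Prime)
    (hm : m ≠ 0) (hidx : (centralizer (D : Set G)).relIndex T = l ^ m)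
    (hc : (l ^ m).Coprime (Nat.card D)) : ∃ D1 D2 : Subgroup G, FreeFactor T D D1 D2 := by
  let _ : CommGroup D :=
    { (inferInstance : Group D) with
      mul_comm := fun a b => Subtype.ext (hab a a.2 b b.2) }
  set τ : MulAut D := D.normalizerMonoidHom ⟨t, hTN ht⟩ with hτ
  have hτx : ∀ (i : ℕ) (x : D), (((τ ^ i) x : D) : G) = t ^ i * x * (t ^ i)⁻¹ := by
    intro i x
    have h1 : τ ^ i = D.normalizerMonoidHom ⟨t ^ i, pow_mem (hTN ht) i⟩ := by
      rw [hτ, ← map_pow]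
      rfl
    rw [h1]
    rfl
  have hpow : ∀ i : ℕ, τ ^ i = 1 ↔ t ^ i ∈ centralizer (D : Set G) := by
    intro i
    rw [mem_centralizer_iff]
    constructor
    · intro h x hx
      have h1 := hτx i ⟨x, hx⟩
      rw [h, MulAut.one_apply] at h1
      exact (mul_inv_eq_iff_eq_mul.mp h1.symm).symm
    · intro h
      ext x
      rw [hτx, MulAut.one_apply, mul_inv_eq_iff_eq_mul]
      exact (h x x.2).symm
  have hnor : ((centralizer (D : Set G)).subgroupOf T).Normal := by
    refine ⟨fun n hn g => ?_⟩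
    rw [mem_subgroupOf, mem_centralizer_iff] at hn ⊢
    intro x hx
    have h1 : (g : G)⁻¹ * x * g ∈ D := by
      have := (mem_normalizer_iff.mp (inv_mem (hTN g.2)) x).mp hx
      rwa [inv_inv] at this
    have h2 := hn _ h1
    push_cast
    calc x * ((g : G) * n * (g : G)⁻¹) = g * (((g : G)⁻¹ * x * g) * n) * (g : G)⁻¹ := by group
      _ = g * (n * ((g : G)⁻¹ * x * g)) * (g : G)⁻¹ := by rw [h2]
      _ = (g : G) * n * (g : G)⁻¹ * x := by group
  have hgen : ∀ x : T ⧸ (centralizer (D : Set G)).subgroupOf T,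
      x ∈ zpowers (QuotientGroup.mk (⟨t, ht⟩ : T) : T ⧸ (centralizer (D : Set G)).subgroupOf T) := by
    intro x
    obtain ⟨n, rfl⟩ := QuotientGroup.mk_surjective x
    obtain ⟨i, hi⟩ := hcyc n n.2
    refine ⟨-(i : ℤ), ?_⟩
    change (QuotientGroup.mk (⟨t, ht⟩ : T) : T ⧸ (centralizer (D : Set G)).subgroupOf T) ^
      (-(i : ℤ)) = _
    rw [zpow_neg, zpow_natCast, ← QuotientGroup.mk_pow, ← QuotientGroup.mk_inv, QuotientGroup.eq,
      mem_subgroupOf]
    push_cast
    rw [inv_inv]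
    exact hi
  have hord : orderOf (QuotientGroup.mk (⟨t, ht⟩ : T) :
      T ⧸ (centralizer (D : Set G)).subgroupOf T) = l ^ m := by
    rw [orderOf_eq_card_of_forall_mem_zpowers hgen, ← hidx]
    rfl
  have hmk : ∀ i : ℕ, (QuotientGroup.mk (⟨t, ht⟩ : T) :
      T ⧸ (centralizer (D : Set G)).subgroupOf T) ^ i = 1 ↔ t ^ i ∈ centralizer (D : Set G) := by
    intro i
    rw [← QuotientGroup.mk_pow, QuotientGroup.eq_one_iff, mem_subgroupOf]
    rfl
  obtain ⟨E1, E2, s1, s2, hinf, hsup, hne, hfree⟩ := exists_free_factor (τ := τ) hl hm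
    ((hpow _).mpr ((hmk _).mp (by rw [← hord]; exact pow_orderOf_eq_one _))) hc
    (fun i hi => by
      rw [← hord]
      exact orderOf_dvd_of_pow_eq_one ((hmk i).mpr ((hpow i).mp hi)))
  have hpw : ∀ (E : Subgroup D), (∀ x ∈ E, τ x ∈ E) → ∀ (i : ℕ), ∀ x ∈ E, (τ ^ i) x ∈ E := by
    intro E hE i
    induction i with
    | zero => intro x hx; simpa using hx
    | succ i ih =>
      intro x hx
      rw [pow_succ, MulAut.mul_apply]
      exact ih _ (hE x hx)
  -- every element of `T` acts as a power of `τ`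
  have hact : ∀ n ∈ T, ∃ i : ℕ, t ^ i * n⁻¹ ∈ centralizer (D : Set G) := by
    intro n hn
    exact hcyc _ (inv_mem hn)
  have hact' : ∀ n ∈ T, ∃ i : ℕ, ∀ x : D, n * (x : G) * n⁻¹ = ((τ ^ i) x : D) ∧
      t ^ i * n⁻¹ ∈ centralizer (D : Set G) := by
    intro n hn
    obtain ⟨i, hi⟩ := hact n hn
    refine ⟨i, fun x => ⟨?_, hi⟩⟩
    rw [hτx]
    have h1 : n * (x : G) * n⁻¹ ∈ D := (mem_normalizer_iff.mp (hTN hn) x).mp x.2
    have h2 := (mem_centralizer_iff.mp hi) _ h1
    have h3 : t ^ i = (t ^ i * n⁻¹) * n := by group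
    rw [h3]
    have h4 : (t ^ i * n⁻¹) * n * (x : G) * ((t ^ i * n⁻¹) * n)⁻¹ =
        ((t ^ i * n⁻¹) * (n * (x : G) * n⁻¹)) * (t ^ i * n⁻¹)⁻¹ := by group
    rw [h4, ← h2, mul_inv_cancel_right]
  refine ⟨E1.map D.subtype, E2.map D.subtype, ?_, ?_, ?_, ?_, ?_, ?_⟩
  · rw [← Subgroup.map_inf_eq _ _ _ D.subtype_injective, hinf, Subgroup.map_bot]
  · rw [← Subgroup.map_sup, hsup, ← MonoidHom.range_eq_map, Subgroup.range_subtype]
  · rintro n hn _ ⟨x, hx, rfl⟩
    obtain ⟨i, hi⟩ := hact' n hn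
    exact ⟨(τ ^ i) x, hpw E1 s1 i x hx, ((hi x).1).symm⟩
  · rintro n hn _ ⟨x, hx, rfl⟩
    obtain ⟨i, hi⟩ := hact' n hn
    exact ⟨(τ ^ i) x, hpw E2 s2 i x hx, ((hi x).1).symm⟩
  · intro h
    apply hne
    rw [eq_bot_iff]
    intro x hx
    have h1 : (x : G) ∈ E1.map D.subtype := ⟨x, hx, rfl⟩
    rw [h, mem_bot] at h1
    exact mem_bot.mpr (Subtype.ext h1)
  · rintro n hn _ ⟨x, hx, rfl⟩ hx1 hfix
    obtain ⟨i, hi⟩ := hact' n hn
    have h1 : (τ ^ i) x = x := Subtype.ext (by rw [← (hi x).1]; exact hfix)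
    have h2 : l ^ m ∣ i := hfree i x hx (fun h => hx1 (by rw [h]; rfl)) h1
    have h3 : t ^ i ∈ centralizer (D : Set G) := by
      rw [← hmk, ← orderOf_dvd_iff_pow_eq_one, hord]
      exact h2
    have h4 := mul_mem (inv_mem (hi x).2) h3
    rwa [mul_inv_rev, inv_inv, inv_mul_cancel_right] at h4

/-- restriction of a free factor to a subgroup of the inertial group -/
theorem FreeFactor.mono {T T' D D1 D2 : Subgroup G} (h : FreeFactor T D D1 D2) (hT : T' ≤ T) :
    FreeFactor T' D D1 D2 :=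
  ⟨h.inf, h.sup, fun n hn => h.n1 n (hT hn), fun n hn => h.n2 n (hT hn), h.ne,
    fun n hn => h.free n (hT hn)⟩

/-- an element of `T` centralising an element outside `D2` centralises `D` -/
theorem FreeFactor.central_of_notMem {T D D1 D2 : Subgroup G} (h : FreeFactor T D D1 D2)
    (hab : ∀ x ∈ D, ∀ y ∈ D, x * y = y * x) {n u : G} (hn : n ∈ T) (hu : u ∈ D) (hu2 : u ∉ D2)
    (hnu : n * u * n⁻¹ = u) : n ∈ centralizer (D : Set G) := by
  have h1D : D1 ≤ D := h.sup ▸ le_sup_left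
  have h2D : D2 ≤ D := h.sup ▸ le_sup_right
  have hu' : u ∈ D1 ⊔ D2 := by rw [h.sup]; exact hu
  -- `u = a * b`
  obtain ⟨a, ha, b, hb, rfl⟩ : ∃ a ∈ D1, ∃ b ∈ D2, a * b = u := by
    have hS : D1 ⊔ D2 ≤ ({ carrier := {x | ∃ a ∈ D1, ∃ b ∈ D2, a * b = x}
                           one_mem' := ⟨1, one_mem _, 1, one_mem _, one_mul 1⟩
                           mul_mem' := by
                            rintro _ _ ⟨a, ha, b, hb, rfl⟩ ⟨c, hc, d, hd, rfl⟩
                            refine ⟨a * c, mul_mem ha hc, b * d, mul_mem hb hd, ?_⟩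
                            have := hab b (h2D hb) c (h1D hc)
                            calc a * c * (b * d) = a * (c * b) * d := by group
                              _ = a * (b * c) * d := by rw [this]
                              _ = a * b * (c * d) := by group
                           inv_mem' := by
                            rintro _ ⟨a, ha, b, hb, rfl⟩
                            refine ⟨a⁻¹, inv_mem ha, b⁻¹, inv_mem hb, ?_⟩
                            rw [mul_inv_rev]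
                            exact hab _ (inv_mem (h1D ha)) _ (inv_mem (h2D hb)) } :
                              Subgroup G) := by
      refine sup_le (fun x hx => ⟨x, hx, 1, one_mem _, mul_one x⟩)
        (fun x hx => ⟨1, one_mem _, x, hx, one_mul x⟩)
    exact hS hu'
  have ha1 : a ≠ 1 := by
    rintro rfl
    exact hu2 (by rwa [one_mul])
  refine h.free n hn a ha ha1 ?_
  -- compare components
  have h1 : (n * a * n⁻¹) * (n * b * n⁻¹) = a * b := by rw [← hnu]; group
  have h2 : a⁻¹ * (n * a * n⁻¹) = b * (n * b * n⁻¹)⁻¹ := by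
    rw [eq_mul_inv_iff_mul_eq, mul_assoc, h1, inv_mul_cancel_left]
  have h3 : a⁻¹ * (n * a * n⁻¹) ∈ D1 ⊓ D2 :=
    Subgroup.mem_inf.mpr ⟨mul_mem (inv_mem ha) (h.n1 n hn a ha),
      h2 ▸ mul_mem hb (inv_mem (h.n2 n hn b hb))⟩
  rw [h.inf, mem_bot, inv_mul_eq_one] at h3
  exact h3.symm

end Vale.P179.H904
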