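import Mathlib

/-!
Signature constancy for a continuous family of invertible Hermitian matrices.
-/

namespace Vale.P179.H904

open Matrix
open scoped ComplexOrder

variable {n ι κ μ : Type*} [Fintype n] [Fintype ι] [Fintype κ] [Fintype μ]

/-- `A` is positive definite on the image of a `κ`-dimensional space. -/
def PosOn (κ : Type*) [Fintype κ] (A : Matrix n n ℂ) : Prop :=
  ∃ B : Matrix n κ ℂ, (Bᴴ * A * B).PosDef

/-- `A` is negative definite on the image of a `κ`-dimensional space. -/
def NegOn (κ : Type*) [Fintype κ] (A : Matrix n n ℂ) : Prop :=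
  ∃ B : Matrix n κ ℂ, (-(Bᴴ * A * B)).PosDef

theorem negOn_iff_posOn_neg (A : Matrix n n ℂ) : NegOn κ A ↔ PosOn κ (-A) := by
  unfold NegOn PosOn
  simp

theorem form_conj (A : Matrix n n ℂ) (B : Matrix n κ ℂ) (x : κ → ℂ) :
    star x ⬝ᵥ ((Bᴴ * A * B) *ᵥ x) = star (B *ᵥ x) ⬝ᵥ (A *ᵥ (B *ᵥ x)) := by
  simp only [star_mulVec, dotProduct_mulVec, vecMul_vecMul]

theorem card_add_le {A : Matrix n n ℂ} (hp : PosOn ι A) (hn : NegOn κ A) :
    Fintype.card ι + Fintype.card κ ≤ Fintype.card n := by
  obtain ⟨B, hB⟩ := hp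
  obtain ⟨B', hB'⟩ := hn
  let f : (ι → ℂ) × (κ → ℂ) →ₗ[ℂ] (n → ℂ) :=
    (Matrix.mulVecLin B).coprod (Matrix.mulVecLin B')
  have hf : Function.Injective f := by
    rw [← LinearMap.ker_eq_bot, LinearMap.ker_eq_bot']
    rintro ⟨x, y⟩ hxy
    have h1 : B *ᵥ x = -(B' *ᵥ y) := by
      have : B *ᵥ x + B' *ᵥ y = 0 := by simpa [f] using hxy
      exact eq_neg_of_add_eq_zero_left this
    have hx : 0 ≤ star x ⬝ᵥ ((Bᴴ * A * B) *ᵥ x) := hB.posSemidef.dotProduct_mulVec_nonneg x
    have hy : 0 ≤ star y ⬝ᵥ ((-(B'ᴴ * A * B')) *ᵥ y) := hB'.posSemidef.dotProduct_mulVec_nonneg y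
    have e1 : star x ⬝ᵥ ((Bᴴ * A * B) *ᵥ x) = star (B' *ᵥ y) ⬝ᵥ (A *ᵥ (B' *ᵥ y)) := by
      rw [form_conj, h1]
      simp [mulVec_neg]
    have e2 : star y ⬝ᵥ ((-(B'ᴴ * A * B')) *ᵥ y) = -(star (B' *ᵥ y) ⬝ᵥ (A *ᵥ (B' *ᵥ y))) := by
      rw [neg_mulVec, dotProduct_neg, form_conj]
    rw [e1] at hx
    rw [e2] at hy
    have h0 : star (B' *ᵥ y) ⬝ᵥ (A *ᵥ (B' *ᵥ y)) = 0 := le_antisymm (by simpa using hy) hx
    have hx0 : x = 0 := by
      by_contra hne
      have := hB.dotProduct_mulVec_pos hne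
      rw [e1, h0] at this
      exact lt_irrefl _ this
    have hy0 : y = 0 := by
      by_contra hne
      have := hB'.dotProduct_mulVec_pos hne
      rw [e2, h0, neg_zero] at this
      exact lt_irrefl _ this
    simp [hx0, hy0]
  have := LinearMap.finrank_le_finrank_of_injective hf
  simpa using this

theorem conj_form_real (A : Matrix n n ℂ) (hA : A.IsHermitian) (x : n → ℂ) :
    (star x ⬝ᵥ (A *ᵥ x)).im = 0 := by
  have := hA.im_star_dotProduct_mulVec_self x
  simpa using this

theorem posDef_of_re {A : Matrix κ κ ℂ} (hA : A.IsHermitian)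
    (h : ∀ x : κ → ℂ, ‖x‖ = 1 → 0 < (star x ⬝ᵥ (A *ᵥ x)).re) : A.PosDef := by
  refine PosDef.of_dotProduct_mulVec_pos hA fun x hx => ?_
  have hn : (0 : ℝ) < ‖x‖ := norm_pos_iff.mpr hx
  have h1 := h (((‖x‖⁻¹ : ℝ) : ℂ) • x) (by
    rw [norm_smul]
    simp [hn.ne'])
  have h2 : (star (((‖x‖⁻¹ : ℝ) : ℂ) • x) ⬝ᵥ (A *ᵥ (((‖x‖⁻¹ : ℝ) : ℂ) • x))) =
      ((‖x‖⁻¹ * ‖x‖⁻¹ : ℝ) : ℂ) * (star x ⬝ᵥ (A *ᵥ x)) := by
    rw [star_smul, mulVec_smul, smul_dotProduct, dotProduct_smul]
    simp only [smul_eq_mul, Complex.star_def, Complex.conj_ofReal]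
    push_cast
    ring
  rw [h2, Complex.re_ofReal_mul] at h1
  have h3 : 0 < (star x ⬝ᵥ (A *ᵥ x)).re := by
    by_contra hc
    have : ‖x‖⁻¹ * ‖x‖⁻¹ * (star x ⬝ᵥ (A *ᵥ x)).re ≤ 0 :=
      mul_nonpos_of_nonneg_of_nonpos (by positivity) (not_lt.mp hc)
    linarith
  rw [Complex.lt_def]
  exact ⟨by simpa using h3, by simp [conj_form_real A hA x]⟩

/-- Openness of positive definiteness along a continuous family. -/
theorem eventually_posOn {G : ℝ → Matrix n n ℂ} (hG : Continuous G)
    (herm : ∀ t, (G t).IsHermitian) {t₀ : ℝ} (h : PosOn κ (G t₀)) :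
    ∀ᶠ t in nhds t₀, PosOn κ (G t) := by
  obtain ⟨B, hB⟩ := h
  have hcont : Continuous (fun z : ℝ × (κ → ℂ) =>
      (star z.2 ⬝ᵥ ((Bᴴ * G z.1 * B) *ᵥ z.2)).re) := by
    apply Complex.continuous_re.comp
    refine Continuous.dotProduct ?_ ?_
    · exact continuous_star.comp continuous_snd
    · refine Continuous.matrix_mulVec ?_ continuous_snd
      exact (continuous_const.matrix_mul (hG.comp continuous_fst)).matrix_mul continuous_const
  have hK : IsCompact (Metric.sphere (0 : κ → ℂ) 1) := isCompact_sphere _ _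
  have := hK.eventually_forall_of_forall_eventually (x₀ := t₀)
    (P := fun t x => 0 < (star x ⬝ᵥ ((Bᴴ * G t * B) *ᵥ x)).re) (by
      intro x hx
      have hx1 : ‖x‖ = 1 := by simpa using hx
      have hx0 : x ≠ 0 := by
        rintro rfl
        simp at hx1
      have hpos : 0 < (star x ⬝ᵥ ((Bᴴ * G t₀ * B) *ᵥ x)).re := by
        have := hB.dotProduct_mulVec_pos hx0
        rw [Complex.lt_def] at this
        simpa using this.1
      exact (hcont.tendsto (t₀, x)).eventually (lt_mem_nhds hpos))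
  filter_upwards [this] with t ht
  refine ⟨B, posDef_of_re (isHermitian_conjTranspose_mul_mul B (herm t)) fun x hx => ?_⟩
  exact ht x (by simpa using hx)

theorem posOn_eigen [DecidableEq n] {A : Matrix n n ℂ} (hA : A.IsHermitian) :
    PosOn {i // 0 < hA.eigenvalues i} A := by
  classical
  refine ⟨(hA.eigenvectorUnitary : Matrix n n ℂ).submatrix id Subtype.val, ?_⟩
  have h1 : ((hA.eigenvectorUnitary : Matrix n n ℂ)ᴴ * A * (hA.eigenvectorUnitary : Matrix n n ℂ))
      = diagonal (RCLike.ofReal ∘ hA.eigenvalues) := by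
    have := hA.conjStarAlgAut_star_eigenvectorUnitary
    simpa [Unitary.conjStarAlgAut_star_apply, star_eq_conjTranspose] using this
  have h2 : (((hA.eigenvectorUnitary : Matrix n n ℂ).submatrix id
        (Subtype.val : {i // 0 < hA.eigenvalues i} → n))ᴴ * A *
      (hA.eigenvectorUnitary : Matrix n n ℂ).submatrix id Subtype.val) =
      (diagonal (fun i : {i // 0 < hA.eigenvalues i} => ((hA.eigenvalues i : ℝ) : ℂ))) := by
    have h3 : (((hA.eigenvectorUnitary : Matrix n n ℂ)ᴴ * A *
        (hA.eigenvectorUnitary : Matrix n n ℂ)).submatrix Subtype.val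
        (Subtype.val : {i // 0 < hA.eigenvalues i} → n)) =
        (diagonal (fun i : {i // 0 < hA.eigenvalues i} => ((hA.eigenvalues i : ℝ) : ℂ))) := by
      rw [h1, submatrix_diagonal _ _ Subtype.val_injective]
      rfl
    rw [← h3]
    ext i j
    simp [Matrix.mul_apply, submatrix_apply]
  rw [h2, posDef_diagonal_iff]
  intro i
  exact_mod_cast i.2

theorem negOn_eigen [DecidableEq n] {A : Matrix n n ℂ} (hA : A.IsHermitian) :
    NegOn {i // hA.eigenvalues i < 0} A := by
  classical
  refine ⟨(hA.eigenvectorUnitary : Matrix n n ℂ).submatrix id Subtype.val, ?_⟩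
  have h1 : ((hA.eigenvectorUnitary : Matrix n n ℂ)ᴴ * A * (hA.eigenvectorUnitary : Matrix n n ℂ))
      = diagonal (RCLike.ofReal ∘ hA.eigenvalues) := by
    have := hA.conjStarAlgAut_star_eigenvectorUnitary
    simpa [Unitary.conjStarAlgAut_star_apply, star_eq_conjTranspose] using this
  have h2 : -(((hA.eigenvectorUnitary : Matrix n n ℂ).submatrix id
        (Subtype.val : {i // hA.eigenvalues i < 0} → n))ᴴ * A *
      (hA.eigenvectorUnitary : Matrix n n ℂ).submatrix id Subtype.val) =
      (diagonal (fun i : {i // hA.eigenvalues i < 0} => ((-hA.eigenvalues i : ℝ) : ℂ))) := by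
    have h3 : (((hA.eigenvectorUnitary : Matrix n n ℂ)ᴴ * A *
        (hA.eigenvectorUnitary : Matrix n n ℂ)).submatrix Subtype.val
        (Subtype.val : {i // hA.eigenvalues i < 0} → n)) =
        (diagonal (fun i : {i // hA.eigenvalues i < 0} => ((hA.eigenvalues i : ℝ) : ℂ))) := by
      rw [h1, submatrix_diagonal _ _ Subtype.val_injective]
      rfl
    have h4 : (diagonal (fun i : {i // hA.eigenvalues i < 0} => ((-hA.eigenvalues i : ℝ) : ℂ))) =
        -(diagonal (fun i : {i // hA.eigenvalues i < 0} => ((hA.eigenvalues i : ℝ) : ℂ))) := by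
      rw [diagonal_neg]
      simp
    rw [h4, ← h3]
    ext i j
    simp [Matrix.mul_apply, submatrix_apply]
  rw [h2, posDef_diagonal_iff]
  intro i
  have := i.2
  exact_mod_cast (neg_pos.mpr this)

theorem card_eigen [DecidableEq n] {A : Matrix n n ℂ} (hA : A.IsHermitian) (hdet : A.det ≠ 0) :
    Fintype.card {i // 0 < hA.eigenvalues i} + Fintype.card {i // hA.eigenvalues i < 0} =
      Fintype.card n := by
  have hne : ∀ i, hA.eigenvalues i ≠ 0 := by
    intro i hi
    apply hdet
    rw [hA.det_eq_prod_eigenvalues]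
    exact Finset.prod_eq_zero (Finset.mem_univ i) (by simp [hi])
  have : Fintype.card {i // hA.eigenvalues i < 0} = Fintype.card {i // ¬ 0 < hA.eigenvalues i} := by
    apply Fintype.card_congr
    refine Equiv.subtypeEquivRight fun i => ?_
    rw [not_lt]
    exact ⟨le_of_lt, fun h => lt_of_le_of_ne h (hne i)⟩
  rw [this, Fintype.card_subtype_compl]
  have := Fintype.card_subtype_le (fun i => 0 < hA.eigenvalues i)
  omega

/-- The number of positive eigenvalues is constant along a continuous path of invertible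
Hermitian matrices. -/
theorem card_pos_const [DecidableEq n] {G : ℝ → Matrix n n ℂ} (hG : Continuous G)
    (herm : ∀ t, (G t).IsHermitian) (hdet : ∀ t, (G t).det ≠ 0) (a b : ℝ) :
    Fintype.card {i // 0 < (herm a).eigenvalues i} =
      Fintype.card {i // 0 < (herm b).eigenvalues i} := by
  classical
  have hlc : IsLocallyConstant (fun t => Fintype.card {i // 0 < (herm t).eigenvalues i}) := by
    rw [IsLocallyConstant.iff_eventually_eq]
    intro t₀
    have h1 := eventually_posOn hG herm (posOn_eigen (herm t₀))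
    have h2 := eventually_posOn (G := fun t => -(G t)) hG.neg (fun t => (herm t).neg)
      ((negOn_iff_posOn_neg _).mp (negOn_eigen (herm t₀)))
    filter_upwards [h1, h2] with t ht1 ht2
    rw [← negOn_iff_posOn_neg] at ht2
    have e1 := card_add_le ht1 (negOn_eigen (herm t))
    have e2 := card_add_le (posOn_eigen (herm t)) ht2
    have e3 := card_eigen (herm t) (hdet t)
    have e4 := card_eigen (herm t₀) (hdet t₀)
    omega
  exact hlc.apply_eq_of_preconnectedSpace a b

/-- Main consequence: if a path of invertible Hermitian matrices of size `ι + κ` is negative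
definite on a `κ`-dimensional space at `a` and positive definite on such a space at `b`,
then `card κ ≤ card ι`. -/
theorem card_le_of_path [DecidableEq n] {G : ℝ → Matrix n n ℂ} (hG : Continuous G)
    (herm : ∀ t, (G t).IsHermitian) (hdet : ∀ t, (G t).det ≠ 0)
    (hcard : Fintype.card n = Fintype.card ι + Fintype.card κ) (a b : ℝ)
    (ha : NegOn κ (G a)) (hb : PosOn κ (G b)) : Fintype.card κ ≤ Fintype.card ι := by
  classical
  have h := card_pos_const hG herm hdet a b
  have e1 := card_add_le (posOn_eigen (herm a)) ha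
  have e2 := card_add_le hb (negOn_eigen (herm b))
  have e3 := card_eigen (herm b) (hdet b)
  omega

end Vale.P179.H904
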