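import Mathlib

/-!
# Module WMOD of the ALLB project (P179): products of matrices indexed by functions
-/

namespace Vale.P179.H904

open Matrix Module

section PiKron

variable {k : Type*} [Field k] {ι J : Type*} [Fintype ι] [DecidableEq ι] [Fintype J]
  [DecidableEq J]

/-- the tensor product of a family of matrices -/
def pk (M : ι → Matrix J J k) : Matrix (ι → J) (ι → J) k := fun a b => ∏ i, M i (a i) (b i)

theorem pk_apply (M : ι → Matrix J J k) (a b : ι → J) : pk M a b = ∏ i, M i (a i) (b i) := rfl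

theorem pk_mul (M N : ι → Matrix J J k) : pk M * pk N = pk (fun i => M i * N i) := by
  ext a b
  simp only [Matrix.mul_apply, pk_apply]
  rw [Finset.prod_univ_sum, Fintype.piFinset_univ]
  simp [Finset.prod_mul_distrib]

theorem pk_one : pk (fun _ : ι => (1 : Matrix J J k)) = 1 := by
  ext a b
  rw [pk_apply]
  by_cases h : a = b
  · subst h; simp
  · rw [Matrix.one_apply_ne h]
    obtain ⟨i, hi⟩ := Function.ne_iff.mp h
    exact Finset.prod_eq_zero (Finset.mem_univ i) (Matrix.one_apply_ne hi)

/-- the shift -/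
def sh (σ : Equiv.Perm ι) : Matrix (ι → J) (ι → J) k := fun a b => if a ∘ σ = b then 1 else 0

theorem sh_mul (σ : Equiv.Perm ι) (A : Matrix (ι → J) (ι → J) k) (a b : ι → J) :
    ((sh σ : Matrix (ι → J) (ι → J) k) * A) a b = A (a ∘ σ) b := by
  simp [Matrix.mul_apply, sh]

theorem mul_sh (σ : Equiv.Perm ι) (A : Matrix (ι → J) (ι → J) k) (a b : ι → J) :
    (A * (sh σ : Matrix (ι → J) (ι → J) k)) a b = A a (b ∘ σ.symm) := by
  simp only [Matrix.mul_apply, sh, mul_ite, mul_one, mul_zero]
  rw [Finset.sum_eq_single (b ∘ σ.symm)]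
  · rw [if_pos]
    funext i; simp
  · intro c _ hc
    rw [if_neg]
    rintro rfl
    exact hc (by funext i; simp)
  · intro h; exact absurd (Finset.mem_univ _) h

theorem sh_pk (σ : Equiv.Perm ι) (M : ι → Matrix J J k) :
    (sh σ : Matrix (ι → J) (ι → J) k) * pk M = pk (fun i => M (σ.symm i)) * sh σ := by
  ext a b
  rw [sh_mul, mul_sh, pk_apply, pk_apply]
  refine Fintype.prod_equiv σ _ _ fun i => ?_
  simp

theorem sh_unit (σ : Equiv.Perm ι) : IsUnit (sh σ : Matrix (ι → J) (ι → J) k) := by
  have h : ∀ σ : Equiv.Perm ι, (sh σ : Matrix (ι → J) (ι → J) k) * sh σ.symm = 1 := by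
    intro σ
    ext a b
    rw [sh_mul]
    by_cases hab : a = b
    · subst hab
      rw [Matrix.one_apply_eq, sh, if_pos]
      funext i; simp
    · rw [Matrix.one_apply_ne hab, sh, if_neg]
      intro h'
      apply hab
      rw [← h']
      funext i; simp
  exact ⟨⟨sh σ, sh σ.symm, h σ, by simpa using h σ.symm⟩, rfl⟩

theorem pk_unit {M : ι → Matrix J J k} (h : ∀ i, IsUnit (M i)) : IsUnit (pk M) := by
  choose u hu using h
  refine ⟨⟨pk M, pk fun i => ((u i)⁻¹ : (Matrix J J k)ˣ), ?_, ?_⟩, rfl⟩
  · rw [pk_mul, ← pk_one]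
    congr 1; funext i; rw [← hu i]; simp
  · rw [pk_mul, ← pk_one]
    congr 1; funext i; rw [← hu i]; simp

variable {T : Type*} [Fintype T] (θ : Basis T k (Matrix J J k))

theorem pk_expand (M : ι → Matrix J J k) :
    pk M = ∑ φ : ι → T, (∏ i, θ.repr (M i) (φ i)) • pk fun i => θ (φ i) := by
  ext a b
  have h : ∀ i, M i (a i) (b i) = ∑ t, θ.repr (M i) t * θ t (a i) (b i) := by
    intro i
    conv_lhs => rw [← θ.sum_repr (M i)]
    simp [Matrix.sum_apply]
  rw [pk_apply, Matrix.sum_apply]
  simp only [h]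
  rw [Finset.prod_univ_sum, Fintype.piFinset_univ]
  refine Finset.sum_congr rfl fun φ _ => ?_
  rw [Matrix.smul_apply, pk_apply, smul_eq_mul, Finset.prod_mul_distrib]

theorem pk_span :
    ⊤ ≤ Submodule.span k (Set.range fun φ : ι → T => pk fun i => θ (φ i)) := by
  intro A _
  rw [Matrix.matrix_eq_sum_single A]
  refine Submodule.sum_mem _ fun a _ => Submodule.sum_mem _ fun b _ => ?_
  have h : Matrix.single a b (A a b) = A a b • pk fun i => Matrix.single (a i) (b i) (1 : k) := by
    ext c d
    rw [Matrix.smul_apply, pk_apply, smul_eq_mul]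
    by_cases h : a = c ∧ b = d
    · obtain ⟨rfl, rfl⟩ := h
      simp
    · rw [Matrix.single_apply_of_ne _ _ _ _ _ h]
      rw [not_and_or] at h
      have : ∃ i, ¬ (a i = c i ∧ b i = d i) := by
        by_contra! hh
        rcases h with h | h
        · exact h (funext fun i => (hh i).1)
        · exact h (funext fun i => (hh i).2)
      obtain ⟨i, hi⟩ := this
      rw [Finset.prod_eq_zero (Finset.mem_univ i), mul_zero]
      exact Matrix.single_apply_of_ne _ _ _ _ _ hi
  rw [h, pk_expand θ]
  refine Submodule.smul_mem _ _ (Submodule.sum_mem _ fun φ _ => Submodule.smul_mem _ _ ?_)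
  exact Submodule.subset_span ⟨φ, rfl⟩

/-- the product basis -/
noncomputable def pkB : Basis (ι → T) k (Matrix (ι → J) (ι → J) k) :=
  basisOfTopLeSpanOfCardEqFinrank _ (pk_span (ι := ι) θ) (by
    have h : Fintype.card T = Fintype.card J * Fintype.card J := by
      rw [← Module.finrank_eq_card_basis θ, Module.finrank_matrix, Module.finrank_self, mul_one]
    rw [Module.finrank_matrix, Module.finrank_self, mul_one, Fintype.card_fun, Fintype.card_fun, h,
      mul_pow])

theorem pkB_apply (φ : ι → T) : pkB θ φ = pk fun i => θ (φ i) := by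
  rw [pkB, coe_basisOfTopLeSpanOfCardEqFinrank]

theorem pkB_conj {R R' : ι → Matrix J J k} {φ φ' : ι → T}
    (h : ∀ i, R i * θ (φ i) * R' i = θ (φ' i)) : pk R * pkB θ φ * pk R' = pkB θ φ' := by
  rw [pkB_apply, pkB_apply, pk_mul, pk_mul]
  exact congrArg pk (funext h)

theorem pkB_comm_iff {R R' : ι → Matrix J J k} (h1 : ∀ i, R i * R' i = 1)
    (h2 : ∀ i, R' i * R i = 1) (hs : ∀ i t, ∃ t', R i * θ t * R' i = θ t') (φ : ι → T) :
    pk R * pkB θ φ = pkB θ φ * pk R ↔ ∀ i, R i * θ (φ i) = θ (φ i) * R i := by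
  constructor
  · intro h
    choose g hg using hs
    have h' : pk R * pkB θ φ * pk R' = pkB θ (fun i => g i (φ i)) := pkB_conj θ fun i => hg i _
    rw [h, mul_assoc, pk_mul] at h'
    simp only [h1, pk_one, mul_one] at h'
    have h3 := (pkB θ).injective h'
    intro i
    have h4 : g i (φ i) = φ i := (congrFun h3 i).symm
    have h5 := hg i (φ i)
    rw [h4] at h5
    calc R i * θ (φ i) = R i * θ (φ i) * (R' i * R i) := by rw [h2, mul_one]
      _ = R i * θ (φ i) * R' i * R i := by simp only [mul_assoc]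
      _ = θ (φ i) * R i := by rw [h5]
  · intro h
    rw [pkB_apply, pk_mul, pk_mul]
    exact congrArg pk (funext h)

end PiKron

end Vale.P179.H904
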