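import Vale.Agent.P179.H904.Wm1
import Vale.Agent.P179.Allb.DefsR

/-!
# Module WMOD of the ALLB project (P179)
-/

namespace Vale.P179.H904

open Matrix Module

section Rep

variable {k D : Type} [Field k] [CommGroup D] {d : ℕ} (r : D →* Matrix (Fin d) (Fin d) k)
  (τ : MulAut D)

/-- the product of the representations `r ∘ τ⁻ʲ` over a list of exponents `f` -/
def rr {n : ℕ} (f : Fin n → ℕ) : D →* Matrix (Fin n → Fin d) (Fin n → Fin d) k where
  toFun x := pk fun i => r ((τ ^ f i)⁻¹ x)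
  map_one' := by
    simp only [map_one]
    exact pk_one
  map_mul' x y := by
    simp only [map_mul]
    exact (pk_mul _ _).symm

theorem rr_apply {n : ℕ} (f : Fin n → ℕ) (x : D) :
    rr r τ f x = pk fun i => r ((τ ^ f i)⁻¹ x) := rfl

theorem finRot_symm_zero (n : ℕ) : (finRotate (n + 1)).symm 0 = Fin.last n := by
  rw [Equiv.symm_apply_eq, finRotate_last]

theorem finRot_symm_succ (n : ℕ) (j : Fin n) : (finRotate (n + 1)).symm j.succ = j.castSucc := by
  rw [Equiv.symm_apply_eq, finRotate_succ_apply, Fin.coeSucc_eq_succ]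

/-- the shift of the product -/
def nu0 {n : ℕ} (κ : Matrix (Fin d) (Fin d) k) :
    Matrix (Fin (n + 1) → Fin d) (Fin (n + 1) → Fin d) k :=
  pk (Fin.cons κ fun _ => 1) * sh (finRotate (n + 1))

theorem nu0_unit {n : ℕ} {κ : Matrix (Fin d) (Fin d) k} (h : IsUnit κ) :
    IsUnit (nu0 (n := n) κ) := by
  refine (pk_unit fun i => ?_).mul (sh_unit _)
  refine Fin.cases ?_ (fun j => ?_) i
  · simpa using h
  · simp

theorem nu0_rr {n : ℕ} {κ : Matrix (Fin d) (Fin d) k}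
    (h : ∀ x, κ * r x = r ((τ ^ (n + 1)) x) * κ) (x : D) :
    nu0 (n := n) κ * rr r τ (fun i => (i : ℕ)) x =
      rr r τ (fun i => (i : ℕ)) (τ x) * nu0 (n := n) κ := by
  rw [nu0, rr_apply, rr_apply, mul_assoc, sh_pk, ← mul_assoc, pk_mul, ← mul_assoc, pk_mul]
  congr 2
  funext i
  refine Fin.cases ?_ (fun j => ?_) i
  · rw [finRot_symm_zero]
    simp only [Fin.cons_zero, Fin.val_last, Fin.val_zero, pow_zero, inv_one, MulAut.one_apply]
    rw [h]
    congr 2
    rw [← MulAut.mul_apply]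
    congr 1
    rw [pow_succ', mul_assoc, mul_inv_cancel, mul_one]
  · rw [finRot_symm_succ]
    simp only [Fin.cons_succ, one_mul, mul_one, Fin.val_castSucc, Fin.val_succ]
    congr 1
    rw [← MulAut.mul_apply]
    congr 1
    rw [pow_succ', _root_.mul_inv_rev, mul_assoc, inv_mul_cancel, mul_one]

theorem pow_rr {J : Type} [Fintype J] [DecidableEq J] (R : D →* Matrix J J k)
    {ν : Matrix J J k} (h : ∀ x, ν * R x = R (τ x) * ν) (m : ℕ) (x : D) :
    ν ^ m * R x = R ((τ ^ m) x) * ν ^ m := by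
  induction m generalizing x with
  | zero => simp
  | succ m ih =>
    rw [pow_succ, mul_assoc, h, ← mul_assoc, ih, mul_assoc, ← pow_succ]
    congr 2

end Rep

section Fix

variable {k D : Type} [Field k] [CommGroup D] {d : ℕ} {r : D →* Matrix (Fin d) (Fin d) k}
  {Q : Subgroup D} {T : Type} [Fintype T] {θ : Basis (Option T) k (Matrix (Fin d) (Fin d) k)}
  {τ : MulAut D}

theorem rinv (r : D →* Matrix (Fin d) (Fin d) k) (x : D) : r x * r x⁻¹ = 1 := by
  rw [← map_mul, mul_inv_cancel, map_one]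

theorem rinv' (r : D →* Matrix (Fin d) (Fin d) k) (x : D) : r x⁻¹ * r x = 1 := by
  rw [← map_mul, inv_mul_cancel, map_one]

theorem stab_all (h1 : θ none = 1)
    (hs : ∀ x i, ∃ j, r x * θ (some i) * r x⁻¹ = θ (some j)) (x : D) (t : Option T) :
    ∃ t', r x * θ t * r x⁻¹ = θ t' := by
  cases t with
  | none => exact ⟨none, by rw [h1, mul_one, rinv]⟩
  | some t => exact (hs x t).imp' some fun _ h => h

theorem rr_comm_iff (h1 : θ none = 1)
    (hs : ∀ x i, ∃ j, r x * θ (some i) * r x⁻¹ = θ (some j)) {n : ℕ} (f : Fin n → ℕ) (x : D)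
    (φ : Fin n → Option T) :
    rr r τ f x * pkB θ φ = pkB θ φ * rr r τ f x ↔
      ∀ i, r ((τ ^ f i)⁻¹ x) * θ (φ i) = θ (φ i) * r ((τ ^ f i)⁻¹ x) := by
  refine pkB_comm_iff θ (R := fun i => r ((τ ^ f i)⁻¹ x)) (R' := fun i => r ((τ ^ f i)⁻¹ x)⁻¹)
    (fun i => rinv _ _) (fun i => rinv' _ _) (fun i t => stab_all h1 hs _ _) φ

theorem rr_stab (h1 : θ none = 1)
    (hs : ∀ x i, ∃ j, r x * θ (some i) * r x⁻¹ = θ (some j)) {n : ℕ} (f : Fin n → ℕ) (x : D)
    (φ : Fin n → Option T) :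
    ∃ φ' : Fin n → Option T, rr r τ f x * pkB θ φ * rr r τ f x⁻¹ = pkB θ φ' ∧
      ∀ i, φ' i = none ↔ φ i = none := by
  have h : ∀ i, ∃ t', r ((τ ^ f i)⁻¹ x) * θ (φ i) * r ((τ ^ f i)⁻¹ x)⁻¹ = θ t' ∧
      (t' = none ↔ φ i = none) := by
    intro i
    cases hφ : φ i with
    | none => exact ⟨none, by rw [h1, mul_one, rinv], Iff.rfl⟩
    | some t =>
      obtain ⟨j, hj⟩ := hs ((τ ^ f i)⁻¹ x) t
      exact ⟨some j, hj, by simp⟩
  choose φ' h2 h3 using h
  refine ⟨φ', ?_, h3⟩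
  rw [rr_apply, rr_apply]
  refine pkB_conj θ fun i => ?_
  rw [map_inv]
  exact h2 i

end Fix

theorem exists_not_mem {D : Type} [CommGroup D] [Finite D] {τ : MulAut D} {Q : Subgroup D} {m : ℕ}
    (h : ¬ ∀ x ∈ Q, (τ ^ m) x ∈ Q) : ∃ x ∈ Q, (τ ^ m)⁻¹ x ∉ Q := by
  by_contra! hc
  apply h
  intro y hy
  let f : Q → Q := fun x => ⟨(τ ^ m)⁻¹ x, hc x x.2⟩
  have hf : Function.Injective f := by
    intro a b hab
    have := congrArg Subtype.val hab
    exact Subtype.ext ((τ ^ m)⁻¹.injective this)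
  obtain ⟨x, hx⟩ := (Finite.injective_iff_surjective.mp hf) ⟨y, hy⟩
  have h2 : (τ ^ m)⁻¹ (x : D) = y := congrArg Subtype.val hx
  rw [← h2, MulAut.apply_inv_self]
  exact x.2

/-- reindexing `Fin d × (Fin n → Fin d)` -/
def cE (d n : ℕ) : (Fin (n + 1) → Fin d) ≃ Fin d × (Fin n → Fin d) :=
  (Fin.consEquiv fun _ : Fin (n + 1) => Fin d).symm

theorem cE_symm_zero {d n : ℕ} (a : Fin d × (Fin n → Fin d)) : (cE d n).symm a 0 = a.1 := rfl

theorem cE_symm_succ {d n : ℕ} (a : Fin d × (Fin n → Fin d)) (j : Fin n) :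
    (cE d n).symm a j.succ = a.2 j := rfl

/-- WMODR, given the roots -/
theorem wmodr_of
    (hroot : ∀ (p : ℕ) [Fact p.Prime] (k : Type) [Field k] [IsAlgClosed k] [CharP k p] (A : Type)
      [Ring A] [Algebra k A] [FiniteDimensional k A] (e : ℕ), e.Coprime p → ∀ f : A, IsUnit f →
      ∃ c ∈ Algebra.adjoin k {f}, c ^ e * f = 1) : Allb.WMODR := by
  intro p _ k _ _ _ D _ _ τ e _ hTW Q _ d r hE hκ
  obtain ⟨hrQ, hd, T, _, θ, h1, hs, hfree⟩ := hE
  classical
  have hex : ∃ n : ℕ, ∀ x ∈ Q, (τ ^ (n + 1)) x ∈ Q := by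
    refine ⟨e - 1, fun x hx => ?_⟩
    rw [Nat.sub_add_cancel (Nat.one_le_iff_ne_zero.mpr (NeZero.ne e)), hTW.pow]
    exact hx
  obtain ⟨n, hn, hmin⟩ : ∃ n : ℕ, (∀ x ∈ Q, (τ ^ (n + 1)) x ∈ Q) ∧
      ∀ m < n, ¬ ∀ x ∈ Q, (τ ^ (m + 1)) x ∈ Q :=
    ⟨Nat.find hex, Nat.find_spec hex, fun m hm => Nat.find_min hex hm⟩
  obtain ⟨κ, hκu, hκr⟩ := hκ (n + 1) hn
  set ν₀ := nu0 (n := n) κ with hν₀
  set R := rr r τ (fun i : Fin (n + 1) => (i : ℕ)) with hR
  have hν₀u : IsUnit ν₀ := nu0_unit hκu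
  have hν₀R : ∀ x, ν₀ * R x = R (τ x) * ν₀ := nu0_rr r τ hκr
  obtain ⟨c, hcm, hc⟩ := hroot p k (Matrix (Fin (n + 1) → Fin d) (Fin (n + 1) → Fin d) k) e hTW.cop
    (ν₀ ^ e) (hν₀u.pow e)
  have hcν : Commute c ν₀ := by
    have h : c ∈ Subalgebra.centralizer k {ν₀} := by
      refine Algebra.adjoin_le (S := Subalgebra.centralizer k {ν₀}) ?_ hcm
      rintro _ rfl
      rw [SetLike.mem_coe, Subalgebra.mem_centralizer_iff]
      rintro _ rfl
      rw [← pow_succ, ← pow_succ']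
    exact ((Subalgebra.mem_centralizer_iff k).mp h _ rfl).symm
  have hcR : ∀ x, Commute c (R x) := by
    intro x
    have h : c ∈ Subalgebra.centralizer k {R x} := by
      refine Algebra.adjoin_le (S := Subalgebra.centralizer k {R x}) ?_ hcm
      rintro _ rfl
      rw [SetLike.mem_coe, Subalgebra.mem_centralizer_iff]
      rintro _ rfl
      rw [pow_rr τ R hν₀R, hTW.pow]
      rfl
    exact ((Subalgebra.mem_centralizer_iff k).mp h _ rfl).symm
  have hνe : (c * ν₀) ^ e = 1 := by rw [hcν.mul_pow, hc]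
  have hνR : ∀ x, (c * ν₀) * R x = R (τ x) * (c * ν₀) := by
    intro x
    rw [mul_assoc, hν₀R, ← mul_assoc, (hcR (τ x)).eq, mul_assoc]
  let α := Matrix.reindexAlgEquiv k k (cE d n)
  have hα : ∀ (M : Matrix (Fin (n + 1) → Fin d) (Fin (n + 1) → Fin d) k) a b,
      α M a b = M ((cE d n).symm a) ((cE d n).symm b) := fun M a b => rfl
  let w : Allb.WD k D (Fin d × (Fin n → Fin d)) τ e :=
    { r := (α : _ →* _).comp R
      ν := α (c * ν₀)
      νpow := by rw [← map_pow, hνe, map_one]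
      νr := fun x => by
        change α (c * ν₀) * α (R x) = α (R (τ x)) * α (c * ν₀)
        rw [← map_mul, hνR, map_mul]
      T := Fin (n + 1) → Option T
      fin := inferInstance
      θ := (pkB θ).map α.toLinearEquiv
      stab := fun x φ => by
        obtain ⟨φ', h2, -⟩ := rr_stab h1 hs (fun i : Fin (n + 1) => (i : ℕ)) x φ (τ := τ)
        refine ⟨φ', ?_⟩
        change α (R x) * α (pkB θ φ) * α (R x⁻¹) = α (pkB θ φ')
        rw [← map_mul, ← map_mul, h2] }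
  have hwr : ∀ x, w.r x = α (R x) := fun x => rfl
  have hwθ : ∀ φ, w.θ φ = α (pkB θ φ) := fun φ => rfl
  refine ⟨Fin n → Fin d, inferInstance, inferInstance, rr r τ (fun i : Fin n => (i : ℕ) + 1), w,
    ?_, ?_, ?_, ?_⟩
  · intro x a b
    rw [hwr, hα, hR, rr_apply, pk_apply, Fin.prod_univ_succ]
    congr 1
  · have hne : ∀ t : Option {φ : Fin n → Option T // φ ≠ fun _ => none},
      (((pkB θ).reindex (Equiv.optionSubtypeNe (fun _ : Fin n => (none : Option T))).symm) t) =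
        pkB θ (Equiv.optionSubtypeNe (fun _ : Fin n => (none : Option T)) t) := by
      intro t
      rw [Basis.reindex_apply, Equiv.symm_symm]
    refine ⟨{φ : Fin n → Option T // φ ≠ fun _ => none}, inferInstance,
      (pkB θ).reindex (Equiv.optionSubtypeNe (fun _ : Fin n => (none : Option T))).symm,
      ?_, ?_, ?_⟩
    · rw [hne, Equiv.optionSubtypeNe_none, pkB_apply]
      simp only [h1]
      exact pk_one
    · rintro x - ⟨φ, hφ⟩
      obtain ⟨φ', h2, h3⟩ := rr_stab h1 hs (fun i : Fin n => (i : ℕ) + 1) x φ (τ := τ)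
      refine ⟨⟨φ', ?_⟩, ?_⟩
      · rintro rfl
        exact hφ (funext fun i => (h3 i).mp rfl)
      · rw [hne, hne, Equiv.optionSubtypeNe_some, Equiv.optionSubtypeNe_some]
        exact h2
    · rintro ⟨φ, hφ⟩
      obtain ⟨i, hi⟩ := Function.ne_iff.mp hφ
      obtain ⟨t, ht⟩ := Option.ne_none_iff_exists'.mp hi
      obtain ⟨x, hx, hxQ⟩ := exists_not_mem (hmin i i.2)
      refine ⟨x, hx, ?_⟩
      rw [hne, Equiv.optionSubtypeNe_some]
      intro h
      have h2 := (rr_comm_iff h1 hs (fun i : Fin n => (i : ℕ) + 1) x φ (τ := τ)).mp h i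
      rw [ht] at h2
      exact hfree _ hxQ t h2
  · rw [Fintype.card_fun, Nat.cast_pow]
    exact pow_ne_zero _ hd
  · intro X hX
    have hkey : ∀ φ : Fin (n + 1) → Option T,
        (∀ x ∈ X, w.r x * w.θ φ = w.θ φ * w.r x) ↔ φ = fun _ => none := by
      intro φ
      have h0 : ∀ x, (w.r x * w.θ φ = w.θ φ * w.r x ↔ ∀ i : Fin (n + 1),
          r ((τ ^ (i : ℕ))⁻¹ x) * θ (φ i) = θ (φ i) * r ((τ ^ (i : ℕ))⁻¹ x)) := by
        intro x
        rw [hwr, hwθ, ← map_mul, ← map_mul, α.injective.eq_iff]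
        exact rr_comm_iff h1 hs (fun i : Fin (n + 1) => (i : ℕ)) x φ (τ := τ)
      simp only [h0]
      constructor
      · intro h
        funext i
        by_contra hi
        obtain ⟨t, ht⟩ := Option.ne_none_iff_exists'.mp hi
        obtain ⟨x, hx, hxQ⟩ := Set.not_subset.mp (hX i)
        have h2 := h x hx i
        rw [ht] at h2
        refine hfree _ (fun h3 => hxQ ?_) t h2
        exact Subgroup.mem_map.mpr ⟨(τ ^ (i : ℕ))⁻¹ x, h3, MulAut.apply_inv_self D _ _⟩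
      · rintro rfl x - i
        rw [h1, mul_one, one_mul]
    rw [Allb.WD.cnt, Nat.card_eq_one_iff_unique]
    refine ⟨⟨fun a b => ?_⟩, ⟨⟨(fun _ => none : Fin (n + 1) → Option T), (hkey _).mpr rfl⟩⟩⟩
    exact Subtype.ext (((hkey _).mp a.2).trans ((hkey _).mp b.2).symm)

end Vale.P179.H904
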